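import Vale.Agent.P254.Mov.Shift

/-! P254/Mov, leaf V6: the covariance matrix of the moved body. -/

open MeasureTheory Set Matrix

namespace Vale.Agent.P254.Mov.H520

variable {n : ℕ}

/-- bounded measurable on `K` -/
def Bm (K : Set (Fin (n + 1) → ℝ)) (f : (Fin (n + 1) → ℝ) → ℝ) : Prop :=
  Measurable f ∧ ∃ C : ℝ, ∀ x ∈ K, |f x| ≤ C

theorem Bm.mul {K : Set (Fin (n + 1) → ℝ)} {f g : (Fin (n + 1) → ℝ) → ℝ} (hf : Bm K f)
    (hg : Bm K g) : Bm K fun x => f x * g x := by
  obtain ⟨C, hC⟩ := hf.2
  obtain ⟨D, hD⟩ := hg.2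
  refine ⟨hf.1.mul hg.1, |C| * |D|, fun x hx => ?_⟩
  rw [abs_mul]
  exact mul_le_mul ((hC x hx).trans (le_abs_self _)) ((hD x hx).trans (le_abs_self _))
    (abs_nonneg _) (abs_nonneg _)

theorem Bm.sub_const {K : Set (Fin (n + 1) → ℝ)} {f : (Fin (n + 1) → ℝ) → ℝ} (hf : Bm K f)
    (c : ℝ) : Bm K fun x => f x - c := by
  obtain ⟨C, hC⟩ := hf.2
  refine ⟨hf.1.sub_const c, C + |c|, fun x hx => ?_⟩
  exact (abs_sub _ _).trans (add_le_add (hC x hx) le_rfl)

theorem Bm.int {K : Set (Fin (n + 1) → ℝ)} (hK : IsCompact K) {f : (Fin (n + 1) → ℝ) → ℝ}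
    (hf : Bm K f) : IntegrableOn f K := by
  obtain ⟨C, hC⟩ := hf.2
  refine Measure.integrableOn_of_bounded (M := C) hK.measure_lt_top.ne
    hf.1.aestronglyMeasurable ?_
  rw [ae_restrict_iff' hK.measurableSet]
  exact Filter.Eventually.of_forall fun x hx => hC x hx

theorem Bm.coord {K : Set (Fin (n + 1) → ℝ)} (hK : IsCompact K) (i : Fin (n + 1)) :
    Bm K fun x => x i := by
  obtain ⟨R, _, hR⟩ := sec_bdd hK
  exact ⟨measurable_pi_apply i, R, fun x hx => hR x hx i⟩

theorem Bm.tail {K : Set (Fin (n + 1) → ℝ)} {q : (Fin n → ℝ) → ℝ} (hq : Measurable q)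
    (hR : ∃ R, ∀ y, |q y| ≤ R) : Bm K fun x => q (Fin.tail x) := by
  obtain ⟨R, hR⟩ := hR
  exact ⟨hq.comp (measurable_pi_lambda _ fun i => measurable_pi_apply _), R, fun x _ => hR _⟩

/-- [V6] the covariance matrix of the moved body, `t ∈ {0, 1, -r}` -/
theorem cov_shift {K : Set (Fin (n + 1) → ℝ)} (hK : IsConvexBody K) {v q : (Fin n → ℝ) → ℝ}
    {t : ℝ} (hK1 : IsCompact (shift (fun y => t * v y) '' K)) (hq : Measurable q)
    (hR : ∃ R, ∀ y, |q y| ≤ R)
    (hv : ∀ᵐ x ∂(volume.restrict K), v (Fin.tail x) = q (Fin.tail x)) (m : ℝ)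
    (hm : m = (volume K).toReal⁻¹ * ∫ x in K, q (Fin.tail x)) :
    volume (shift (fun y => t * v y) '' K) = volume K ∧
    (∀ i j : Fin n, covMatrix (shift (fun y => t * v y) '' K) i.succ j.succ =
      covMatrix K i.succ j.succ) ∧
    (∀ i : Fin n, covMatrix (shift (fun y => t * v y) '' K) 0 i.succ =
      covMatrix K 0 i.succ + t * ((volume K).toReal⁻¹ *
        ∫ x in K, (q (Fin.tail x) - m) * (x i.succ - centroid K i.succ))) ∧
    covMatrix (shift (fun y => t * v y) '' K) 0 0 =
      covMatrix K 0 0 + 2 * t * ((volume K).toReal⁻¹ *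
        ∫ x in K, (q (Fin.tail x) - m) * (x 0 - centroid K 0)) +
      t ^ 2 * ((volume K).toReal⁻¹ * ∫ x in K, (q (Fin.tail x) - m) ^ 2) := by
  have hKc := hK.2.1
  have hV : volume (shift (fun y => t * v y) '' K) = volume K := by
    have h1 := shift_int hKc hK1 (φ := fun _ => (1 : ℝ)) continuous_const
    rw [setIntegral_const, setIntegral_const, smul_eq_mul, smul_eq_mul, mul_one, mul_one] at h1
    exact (ENNReal.toReal_eq_toReal_iff' hK1.measure_lt_top.ne hKc.measure_lt_top.ne).1 h1
  have hs : ∀ (x : Fin (n + 1) → ℝ) (i : Fin n), shift (fun y => t * v y) x i.succ = x i.succ :=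
    fun x i => rfl
  have hs0 : ∀ x : Fin (n + 1) → ℝ, shift (fun y => t * v y) x 0 = x 0 + t * v (Fin.tail x) :=
    fun x => rfl
  have bq : Bm K fun x => q (Fin.tail x) := Bm.tail hq hR
  have b0 : Bm K fun x => x 0 := Bm.coord hKc 0
  have hc : ∀ i : Fin n, centroid (shift (fun y => t * v y) '' K) i.succ = centroid K i.succ := by
    intro i
    unfold centroid
    rw [hV, shift_int hKc hK1 (φ := fun x => x i.succ) (continuous_apply _)]
    rfl
  have hc0 : centroid (shift (fun y => t * v y) '' K) 0 = centroid K 0 + t * m := by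
    unfold centroid
    rw [hV, shift_int hKc hK1 (φ := fun x => x 0) (continuous_apply _)]
    have h1 : ∫ x in K, shift (fun y => t * v y) x 0 =
        ∫ x in K, (x 0 + t * q (Fin.tail x)) := by
      refine integral_congr_ae ?_
      filter_upwards [hv] with x hx
      rw [hs0, hx]
    rw [h1, integral_add (b0.int hKc) ((bq.int hKc).const_mul t), integral_const_mul, hm]
    ring
  refine ⟨hV, fun i j => ?_, fun i => ?_, ?_⟩
  · unfold covMatrix
    rw [hc, hc, hV, shift_int hKc hK1
      (φ := fun x => (x i.succ - centroid K i.succ) * (x j.succ - centroid K j.succ))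
      (by fun_prop)]
    rfl
  · unfold covMatrix
    rw [hc, hc0, hV, shift_int hKc hK1
      (φ := fun x => (x 0 - (centroid K 0 + t * m)) * (x i.succ - centroid K i.succ))
      (by fun_prop)]
    have h1 : ∫ x in K, (shift (fun y => t * v y) x 0 - (centroid K 0 + t * m)) *
        (shift (fun y => t * v y) x i.succ - centroid K i.succ) =
        ∫ x in K, ((x 0 - centroid K 0) * (x i.succ - centroid K i.succ) +
          t * ((q (Fin.tail x) - m) * (x i.succ - centroid K i.succ))) := by
      refine integral_congr_ae ?_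
      filter_upwards [hv] with x hx
      rw [hs0, hs, hx]
      ring
    have i1 := ((b0.sub_const (centroid K 0)).mul
      ((Bm.coord hKc i.succ).sub_const (centroid K i.succ))).int hKc
    have i2 := ((bq.sub_const m).mul
      ((Bm.coord hKc i.succ).sub_const (centroid K i.succ))).int hKc
    rw [h1, integral_add i1 (i2.const_mul t), integral_const_mul]
    ring
  · unfold covMatrix
    rw [hc0, hV, shift_int hKc hK1
      (φ := fun x => (x 0 - (centroid K 0 + t * m)) * (x 0 - (centroid K 0 + t * m)))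
      (by fun_prop)]
    have h1 : ∫ x in K, (shift (fun y => t * v y) x 0 - (centroid K 0 + t * m)) *
        (shift (fun y => t * v y) x 0 - (centroid K 0 + t * m)) =
        ∫ x in K, ((x 0 - centroid K 0) * (x 0 - centroid K 0) +
          (2 * t) * ((q (Fin.tail x) - m) * (x 0 - centroid K 0)) +
          t ^ 2 * ((q (Fin.tail x) - m) * (q (Fin.tail x) - m))) := by
      refine integral_congr_ae ?_
      filter_upwards [hv] with x hx
      rw [hs0, hx]
      ring
    have i1 := ((b0.sub_const (centroid K 0)).mul (b0.sub_const (centroid K 0))).int hKc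
    have i2 := ((bq.sub_const m).mul (b0.sub_const (centroid K 0))).int hKc
    have i3 := ((bq.sub_const m).mul (bq.sub_const m)).int hKc
    have e3 : ∫ x in K, (q (Fin.tail x) - m) ^ 2 =
        ∫ x in K, (q (Fin.tail x) - m) * (q (Fin.tail x) - m) := by
      congr 1
      funext x
      ring
    have i12 : Integrable (fun x : Fin (n + 1) → ℝ => (x 0 - centroid K 0) * (x 0 - centroid K 0) +
        2 * t * ((q (Fin.tail x) - m) * (x 0 - centroid K 0))) (volume.restrict K) :=
      i1.add (i2.const_mul (2 * t))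
    rw [h1, integral_add i12 (i3.const_mul (t ^ 2)),
      integral_add i1 (i2.const_mul (2 * t)), integral_const_mul, integral_const_mul, e3]
    ring

end Vale.Agent.P254.Mov.H520
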