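import Vale.Agent.P254.Mov.Defs

/-! [V4] Linear regression of a bounded function of the last coordinates on these coordinates. -/

set_option linter.unusedVariables false

open MeasureTheory Set Matrix

namespace Vale.Agent.P254.Mov

namespace H490

variable {n : ℕ}

/-- measurable, and bounded on `K` -/
def BM (K : Set (Fin (n + 1) → ℝ)) (f : (Fin (n + 1) → ℝ) → ℝ) : Prop :=
  Measurable f ∧ ∃ R, ∀ x ∈ K, |f x| ≤ R

theorem BM.mul {K : Set (Fin (n + 1) → ℝ)} {f g : (Fin (n + 1) → ℝ) → ℝ} (hf : BM K f)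
    (hg : BM K g) : BM K (fun x => f x * g x) := by
  obtain ⟨hf1, R, hR⟩ := hf
  obtain ⟨hg1, S, hS⟩ := hg
  refine ⟨hf1.mul hg1, R * S, fun x hx => ?_⟩
  rw [abs_mul]
  exact mul_le_mul (hR x hx) (hS x hx) (abs_nonneg _) ((abs_nonneg _).trans (hR x hx))

theorem BM.int {K : Set (Fin (n + 1) → ℝ)} {f : (Fin (n + 1) → ℝ) → ℝ} (hf : BM K f)
    (hK : IsCompact K) : IntegrableOn f K := by
  obtain ⟨hf1, R, hR⟩ := hf
  refine Measure.integrableOn_of_bounded (M := R) hK.measure_lt_top.ne hf1.aestronglyMeasurable ?_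
  filter_upwards [ae_restrict_mem hK.measurableSet] with x hx
  rw [Real.norm_eq_abs]
  exact hR x hx

/-- the integral of the square of `p - ∑ a i y i` -/
theorem int_sq {K : Set (Fin (n + 1) → ℝ)} (hK : IsCompact K) {p : (Fin (n + 1) → ℝ) → ℝ}
    {y : Fin n → (Fin (n + 1) → ℝ) → ℝ} (hp : BM K p) (hy : ∀ i, BM K (y i)) (a : Fin n → ℝ) :
    ∫ x in K, (p x - ∑ i, a i * y i x) ^ 2 =
      (∫ x in K, p x ^ 2) - 2 * (∑ i, a i * (∫ x in K, p x * y i x)) +
        ∑ i, a i * ∑ j, (∫ x in K, y i x * y j x) * a j := by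
  have h1 : ∀ x, (p x - ∑ i, a i * y i x) ^ 2 =
      p x * p x - (∑ i, (2 * a i) * (p x * y i x)) + ∑ i, ∑ j, (a i * a j) * (y i x * y j x) := by
    intro x
    have h2 : (∑ i, a i * y i x) * (∑ j, a j * y j x) =
        ∑ i, ∑ j, (a i * a j) * (y i x * y j x) := by
      rw [Finset.sum_mul_sum]
      exact Finset.sum_congr rfl fun i _ => Finset.sum_congr rfl fun j _ => by ring
    have h3 : ∑ i, (2 * a i) * (p x * y i x) = 2 * p x * ∑ i, a i * y i x := by
      rw [Finset.mul_sum]
      exact Finset.sum_congr rfl fun i _ => by ring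
    rw [← h2, h3]
    ring
  have i1 : Integrable (fun x => p x * p x) (volume.restrict K) := (hp.mul hp).int hK
  have i2 : ∀ i ∈ Finset.univ, Integrable (fun x => (2 * a i) * (p x * y i x)) (volume.restrict K) :=
    fun i _ => Integrable.const_mul ((hp.mul (hy i)).int hK) _
  have i3 : ∀ i j, Integrable (fun x => (a i * a j) * (y i x * y j x)) (volume.restrict K) :=
    fun i j => Integrable.const_mul (((hy i).mul (hy j)).int hK) _
  have s2 : Integrable (fun x => ∑ i, (2 * a i) * (p x * y i x)) (volume.restrict K) :=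
    integrable_finsetSum _ i2
  have s3 : Integrable (fun x => ∑ i, ∑ j, (a i * a j) * (y i x * y j x)) (volume.restrict K) :=
    integrable_finsetSum _ fun i _ => integrable_finsetSum _ fun j _ => i3 i j
  have s4 : Integrable (fun x => p x * p x - ∑ i, (2 * a i) * (p x * y i x))
    (volume.restrict K) := i1.sub s2
  simp only [h1]
  rw [integral_add s4 s3, integral_sub i1 s2, integral_finsetSum _ i2,
    integral_finsetSum _ (fun i _ => integrable_finsetSum _ fun j _ => i3 i j)]
  have e1 : ∫ x in K, p x ^ 2 = ∫ x in K, p x * p x := by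
    simp only [sq]
  rw [e1]
  congr 1
  · congr 1
    rw [Finset.mul_sum]
    refine Finset.sum_congr rfl fun i _ => ?_
    rw [integral_const_mul]
    ring
  · refine Finset.sum_congr rfl fun i _ => ?_
    rw [integral_finsetSum _ (fun j _ => i3 i j), Finset.mul_sum]
    refine Finset.sum_congr rfl fun j _ => ?_
    rw [integral_const_mul]
    ring

end H490

open H490 in
/-- [V4] linear regression of `q` on the coordinates -/
theorem regress {n : ℕ} {K : Set (Fin (n + 1) → ℝ)} (hK : IsConvexBody K) {q : (Fin n → ℝ) → ℝ}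
    (hq : Measurable q) (hR : ∃ R, ∀ y, |q y| ≤ R) (C : Matrix (Fin n) (Fin n) ℝ)
    (hC : ∀ i j, C i j = covMatrix K (Fin.succ i) (Fin.succ j)) (hC' : C.PosDef)
    (m g : ℝ) (β : Fin n → ℝ) (hm : m = (volume K).toReal⁻¹ * ∫ x in K, q (Fin.tail x))
    (hg : g = (volume K).toReal⁻¹ * ∫ x in K, (q (Fin.tail x) - m) ^ 2)
    (hβ : ∀ i, β i = (volume K).toReal⁻¹ *
      ∫ x in K, (q (Fin.tail x) - m) * (x (Fin.succ i) - centroid K (Fin.succ i))) :
    β ⬝ᵥ (C⁻¹ *ᵥ β) ≤ g ∧ (g = β ⬝ᵥ (C⁻¹ *ᵥ β) →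
      ∃ (a : Fin n → ℝ) (c : ℝ), ∀ᵐ x ∂(volume.restrict K),
        q (Fin.tail x) = a ⬝ᵥ Fin.tail x + c) := by
  obtain ⟨-, hKc, hKi⟩ := hK
  have hV : 0 < (volume K).toReal :=
    ENNReal.toReal_pos (Measure.measure_pos_of_nonempty_interior _ hKi).ne' hKc.measure_lt_top.ne
  have htail : Measurable (fun x : Fin (n + 1) → ℝ => (Fin.tail x : Fin n → ℝ)) := by
    refine measurable_pi_lambda _ fun i => ?_
    exact measurable_pi_apply (Fin.succ i)
  have hp : BM K (fun x => q (Fin.tail x) - m) := by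
    obtain ⟨R, hR⟩ := hR
    refine ⟨(hq.comp htail).sub_const m, R + |m|, fun x _ => ?_⟩
    exact (abs_sub _ _).trans (add_le_add (hR _) le_rfl)
  have hy : ∀ i : Fin n, BM K (fun x => x (Fin.succ i) - centroid K (Fin.succ i)) := by
    intro i
    have hc : Continuous fun x : Fin (n + 1) → ℝ => x (Fin.succ i) - centroid K (Fin.succ i) := by
      fun_prop
    obtain ⟨R, hR⟩ := hKc.exists_bound_of_continuousOn hc.continuousOn
    exact ⟨hc.measurable, R, fun x hx => by simpa [Real.norm_eq_abs] using hR x hx⟩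
  set a : Fin n → ℝ := C⁻¹ *ᵥ β with ha
  have hdet : IsUnit C.det := hC'.det_pos.ne'.isUnit
  have hCa : C *ᵥ a = β := by
    rw [ha, mulVec_mulVec, mul_nonsing_inv C hdet, one_mulVec]
  have hI := int_sq hKc hp hy a
  have h0 : 0 ≤ ∫ x in K, (q (Fin.tail x) - m -
      ∑ i, a i * (x (Fin.succ i) - centroid K (Fin.succ i))) ^ 2 :=
    integral_nonneg fun x => sq_nonneg _
  have hval : (volume K).toReal⁻¹ * ∫ x in K, (q (Fin.tail x) - m -
      ∑ i, a i * (x (Fin.succ i) - centroid K (Fin.succ i))) ^ 2 = g - β ⬝ᵥ a := by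
    rw [hI, hg]
    have e1 : (volume K).toReal⁻¹ * (2 * (∑ i, a i * (∫ x in K, (q (Fin.tail x) - m) *
        (x (Fin.succ i) - centroid K (Fin.succ i))))) = 2 * (β ⬝ᵥ a) := by
      rw [dotProduct, Finset.mul_sum, Finset.mul_sum, Finset.mul_sum]
      refine Finset.sum_congr rfl fun i _ => ?_
      rw [hβ i]
      ring
    have e2 : (volume K).toReal⁻¹ * (∑ i, a i * ∑ j, (∫ x in K,
        (x (Fin.succ i) - centroid K (Fin.succ i)) * (x (Fin.succ j) - centroid K (Fin.succ j))) *
          a j) = β ⬝ᵥ a := by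
      conv_rhs => rw [← hCa, dotProduct_comm]
      rw [dotProduct, Finset.mul_sum]
      refine Finset.sum_congr rfl fun i _ => ?_
      rw [mulVec, dotProduct, ← mul_assoc, mul_comm _ (a i), mul_assoc, Finset.mul_sum]
      congr 1
      refine Finset.sum_congr rfl fun j _ => ?_
      rw [hC i j]
      unfold covMatrix
      ring
    rw [mul_add, mul_sub, e1, e2]
    ring
  constructor
  · have : 0 ≤ g - β ⬝ᵥ a := by
      rw [← hval]
      positivity
    linarith
  · intro heq
    have hz : ∫ x in K, (q (Fin.tail x) - m -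
      ∑ i, a i * (x (Fin.succ i) - centroid K (Fin.succ i))) ^ 2 = 0 := by
      have h1 : (volume K).toReal⁻¹ * ∫ x in K, (q (Fin.tail x) - m -
        ∑ i, a i * (x (Fin.succ i) - centroid K (Fin.succ i))) ^ 2 = 0 := by
        rw [hval, heq]
        ring
      rcases mul_eq_zero.1 h1 with h | h
      · exact absurd h (inv_ne_zero hV.ne')
      · exact h
    have hr : BM K (fun x => q (Fin.tail x) - m -
        ∑ i, a i * (x (Fin.succ i) - centroid K (Fin.succ i))) := by
      have hc : Continuous fun x : Fin (n + 1) → ℝ =>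
          ∑ i, a i * (x (Fin.succ i) - centroid K (Fin.succ i)) := by
        fun_prop
      obtain ⟨R, hR⟩ := hKc.exists_bound_of_continuousOn hc.continuousOn
      obtain ⟨hp1, S, hS⟩ := hp
      refine ⟨hp1.sub hc.measurable, S + R, fun x hx => ?_⟩
      exact (abs_sub _ _).trans (add_le_add (hS x hx) (by simpa [Real.norm_eq_abs] using hR x hx))
    have hint : Integrable (fun x => (q (Fin.tail x) - m -
        ∑ i, a i * (x (Fin.succ i) - centroid K (Fin.succ i))) ^ 2) (volume.restrict K) := by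
      have h2 : Integrable (fun x => (q (Fin.tail x) - m -
          ∑ i, a i * (x (Fin.succ i) - centroid K (Fin.succ i))) * (q (Fin.tail x) - m -
          ∑ i, a i * (x (Fin.succ i) - centroid K (Fin.succ i)))) (volume.restrict K) :=
        (hr.mul hr).int hKc
      refine h2.congr (Filter.Eventually.of_forall fun x => ?_)
      exact (sq _).symm
    have hae := (integral_eq_zero_iff_of_nonneg (fun x => sq_nonneg _) hint).1 hz
    refine ⟨a, m - ∑ i, a i * centroid K (Fin.succ i), ?_⟩
    filter_upwards [hae] with x hx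
    have h1 : q (Fin.tail x) - m -
        ∑ i, a i * (x (Fin.succ i) - centroid K (Fin.succ i)) = 0 := by
      have : (q (Fin.tail x) - m -
        ∑ i, a i * (x (Fin.succ i) - centroid K (Fin.succ i))) ^ 2 = 0 := hx
      exact pow_eq_zero_iff (two_ne_zero) |>.1 this
    have h2 : ∑ i, a i * (x (Fin.succ i) - centroid K (Fin.succ i)) =
        a ⬝ᵥ Fin.tail x - ∑ i, a i * centroid K (Fin.succ i) := by
      rw [dotProduct, ← Finset.sum_sub_distrib]
      refine Finset.sum_congr rfl fun i _ => ?_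
      rw [mul_sub]
      rfl
    rw [h2] at h1
    linarith

end Vale.Agent.P254.Mov
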