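import Vale.Agent.P254.Mov.Move393
import Vale.Agent.P254.Mov.Regress
import Vale.Agent.P254.Mov.CovShift520

/-!
P254: closure under movements along the chords of one direction (final form).
-/

open MeasureTheory Set Matrix

namespace Vale.Agent.P254.Mov.H393

open Vale.Agent.P254.FV (Good)

/-- If `K` lies between two bodies which satisfy the conjecture and are obtained from `K` by
translating its chords in one direction, by `v y` and by `-(r * v y)`, then `K` satisfies it. -/
theorem good_move {n : ℕ} {K : Set (Fin (n + 1) → ℝ)} {v : (Fin n → ℝ) → ℝ} {r : ℝ} (hr : 0 < r)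
    (hK : IsConvexBody K) (h1 : Good (shift v '' K))
    (h2 : Good (shift (fun y => -(r * v y)) '' K)) : Good K :=
  good_move_of (fun {_} a {_} b c C d e m g β h1 h2 h3 => regress a b c C d e m g β h1 h2 h3)
    (fun {_} a {_ _ _} b c d e m f => H520.cov_shift a b c d e m f) hr hK h1 h2

end Vale.Agent.P254.Mov.H393
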