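import Vale.Agent.P254.Mov.Defs

/-! P254/Mov, leaf V3: bordered determinants (Schur complement). -/

open Matrix

namespace Vale.Agent.P254.Mov

namespace H102

/-- Bordered determinant, first row and column single. -/
theorem det_border {n : ℕ} (C : Matrix (Fin n) (Fin n) ℝ) (hC : IsUnit C.det)
    (N : Matrix (Fin (n + 1)) (Fin (n + 1)) ℝ) (s : ℝ) (u w : Fin n → ℝ)
    (h00 : N 0 0 = s) (h0 : ∀ i, N 0 (Fin.succ i) = u i) (h1 : ∀ i, N (Fin.succ i) 0 = w i)
    (h2 : ∀ i j, N (Fin.succ i) (Fin.succ j) = C i j) :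
    N.det = C.det * (s - u ⬝ᵥ (C⁻¹ *ᵥ w)) := by
  let e : Fin n ⊕ PUnit.{1} ≃ Fin (n + 1) :=
    ((finSuccEquiv n).trans (Equiv.optionEquivSumPUnit (Fin n))).symm
  have hl : ∀ i, e (Sum.inl i) = Fin.succ i := by
    intro i
    simp [e]
  have hr : ∀ i, e (Sum.inr i) = 0 := by
    intro i
    simp [e]
  have hN : N.submatrix e e = Matrix.fromBlocks C (Matrix.of fun i _ => w i)
      (Matrix.of fun _ i => u i) (Matrix.of fun _ _ => s) := by
    ext i j
    rcases i with i | i <;> rcases j with j | j <;>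
      simp [hl, hr, h00, h0, h1, h2]
  haveI : Invertible C := C.invertibleOfIsUnitDet hC
  have h := Matrix.det_submatrix_equiv_self e N
  rw [← h, hN, Matrix.det_fromBlocks₁₁, Matrix.invOf_eq_nonsing_inv]
  congr 1
  rw [Matrix.det_unique]
  simp only [Matrix.sub_apply, Matrix.of_apply, Matrix.mul_apply, dotProduct, mulVec]
  congr 1
  simp only [Finset.sum_mul, Finset.mul_sum]
  rw [Finset.sum_comm]
  refine Finset.sum_congr rfl fun i _ => Finset.sum_congr rfl fun j _ => ?_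
  ring

end H102

variable {n : ℕ}

/-- [V3] bordered determinants (Schur complement) -/
theorem det_bord (C : Matrix (Fin n) (Fin n) ℝ) (hC : C.PosDef) (a e g : ℝ) (b β : Fin n → ℝ)
    (M : ℝ → Matrix (Fin (n + 1)) (Fin (n + 1)) ℝ)
    (h00 : ∀ t, M t 0 0 = a + 2 * t * e + t ^ 2 * g)
    (h0 : ∀ t i, M t 0 (Fin.succ i) = b i + t * β i)
    (h1 : ∀ t i, M t (Fin.succ i) 0 = b i + t * β i)
    (h2 : ∀ t i j, M t (Fin.succ i) (Fin.succ j) = C i j) (r : ℝ) :
    (1 + r) * (M 0).det + r * (1 + r) * (C.det * (g - β ⬝ᵥ (C⁻¹ *ᵥ β))) =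
      r * (M 1).det + (M (-r)).det := by
  have hu : IsUnit C.det := isUnit_iff_ne_zero.2 hC.det_pos.ne'
  have key : ∀ t, (M t).det = C.det * (a + 2 * t * e + t ^ 2 * g -
      (b ⬝ᵥ (C⁻¹ *ᵥ b) + t * (b ⬝ᵥ (C⁻¹ *ᵥ β) + β ⬝ᵥ (C⁻¹ *ᵥ b)) +
        t ^ 2 * (β ⬝ᵥ (C⁻¹ *ᵥ β)))) := by
    intro t
    have h := H102.det_border C hu (M t) (a + 2 * t * e + t ^ 2 * g) (b + t • β) (b + t • β)
      (h00 t) (fun i => by simpa using h0 t i) (fun i => by simpa using h1 t i) (h2 t)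
    rw [h, Matrix.mulVec_add, Matrix.mulVec_smul, add_dotProduct, dotProduct_add, dotProduct_add,
      smul_dotProduct, smul_dotProduct, dotProduct_smul, dotProduct_smul]
    simp only [smul_eq_mul]
    ring
  rw [key 0, key 1, key (-r)]
  ring

end Vale.Agent.P254.Mov
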