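import Vale.Agent.P254.Mov.Defs

/-! P254: [V3], bordered determinants (Schur complement). -/

open MeasureTheory Set Matrix

namespace Vale.Agent.P254.Mov.H408

variable {n : ℕ}

/-- the index equivalence -/
def ee (n : ℕ) : Unit ⊕ Fin n ≃ Fin (n + 1) :=
  (Equiv.sumComm Unit (Fin n)).trans ((Equiv.optionEquivSumPUnit (Fin n)).symm.trans
    (finSuccEquiv n).symm)

lemma ee_inl (u : Unit) : ee n (Sum.inl u) = 0 := by
  simp [ee]

lemma ee_inr (i : Fin n) : ee n (Sum.inr i) = Fin.succ i := by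
  simp [ee]

lemma det_border (C : Matrix (Fin n) (Fin n) ℝ) (hC : C.PosDef) (a : ℝ) (b : Fin n → ℝ)
    (M : Matrix (Fin (n + 1)) (Fin (n + 1)) ℝ) (h00 : M 0 0 = a)
    (h0 : ∀ i, M 0 (Fin.succ i) = b i) (h1 : ∀ i, M (Fin.succ i) 0 = b i)
    (h2 : ∀ i j, M (Fin.succ i) (Fin.succ j) = C i j) :
    M.det = C.det * (a - b ⬝ᵥ (C⁻¹ *ᵥ b)) := by
  haveI : Invertible C := hC.isUnit.invertible
  have e1 : M.submatrix (ee n) (ee n) = Matrix.fromBlocks (Matrix.of fun _ _ : Unit => a)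
      (Matrix.of fun (_ : Unit) j => b j) (Matrix.of fun i (_ : Unit) => b i) C := by
    ext i j
    rcases i with i | i <;> rcases j with j | j
    · simp only [Matrix.submatrix_apply, ee_inl, Matrix.fromBlocks_apply₁₁, Matrix.of_apply, h00]
    · simp only [Matrix.submatrix_apply, ee_inl, ee_inr, Matrix.fromBlocks_apply₁₂,
        Matrix.of_apply, h0]
    · simp only [Matrix.submatrix_apply, ee_inl, ee_inr, Matrix.fromBlocks_apply₂₁,
        Matrix.of_apply, h1]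
    · simp only [Matrix.submatrix_apply, ee_inr, Matrix.fromBlocks_apply₂₂, h2]
  rw [← Matrix.det_submatrix_equiv_self (ee n) M, e1, Matrix.det_fromBlocks₂₂]
  congr 1
  rw [Matrix.det_unique]
  simp only [Matrix.sub_apply, Matrix.of_apply, Matrix.invOf_eq_nonsing_inv]
  congr 1
  rw [Matrix.mul_assoc, Matrix.mul_apply]
  simp only [Matrix.of_apply, dotProduct]
  refine Finset.sum_congr rfl fun i _ => ?_
  congr 1

/-- [V3] bordered determinants (Schur complement) -/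
theorem det_bord (C : Matrix (Fin n) (Fin n) ℝ) (hC : C.PosDef) (a e g : ℝ) (b β : Fin n → ℝ)
    (M : ℝ → Matrix (Fin (n + 1)) (Fin (n + 1)) ℝ)
    (h00 : ∀ t, M t 0 0 = a + 2 * t * e + t ^ 2 * g)
    (h0 : ∀ t i, M t 0 (Fin.succ i) = b i + t * β i)
    (h1 : ∀ t i, M t (Fin.succ i) 0 = b i + t * β i)
    (h2 : ∀ t i j, M t (Fin.succ i) (Fin.succ j) = C i j) (r : ℝ) :
    (1 + r) * (M 0).det + r * (1 + r) * (C.det * (g - β ⬝ᵥ (C⁻¹ *ᵥ β))) =
      r * (M 1).det + (M (-r)).det := by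
  have hsym : b ⬝ᵥ (C⁻¹ *ᵥ β) = β ⬝ᵥ (C⁻¹ *ᵥ b) := by
    have hT : (C⁻¹)ᵀ = C⁻¹ := by
      have h3 : Cᵀ = C := by
        have := hC.isHermitian
        simpa [Matrix.IsHermitian, Matrix.conjTranspose_eq_transpose_of_trivial] using this
      rw [Matrix.transpose_nonsing_inv, h3]
    rw [Matrix.dotProduct_mulVec, ← Matrix.mulVec_transpose, hT, dotProduct_comm]
  have key : ∀ t : ℝ, (M t).det = C.det * ((a - b ⬝ᵥ (C⁻¹ *ᵥ b)) +
      2 * t * (e - β ⬝ᵥ (C⁻¹ *ᵥ b)) + t ^ 2 * (g - β ⬝ᵥ (C⁻¹ *ᵥ β))) := by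
    intro t
    rw [det_border C hC (a + 2 * t * e + t ^ 2 * g) (b + t • β) (M t) (h00 t)
      (fun i => by rw [h0]; rfl) (fun i => by rw [h1]; rfl) (h2 t)]
    congr 1
    rw [Matrix.mulVec_add, Matrix.mulVec_smul, add_dotProduct, dotProduct_add, dotProduct_add,
      smul_dotProduct, dotProduct_smul, smul_dotProduct, dotProduct_smul, hsym]
    simp only [smul_eq_mul]
    ring
  rw [key 0, key 1, key (-r)]
  ring

end Vale.Agent.P254.Mov.H408
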