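import Vale.Agent.P254.Mov.Shift

/-! [V6] of P254/Mov: the covariance matrix of the moved body. -/

open MeasureTheory Set Matrix

namespace Vale.Agent.P254.Mov

variable {n : ℕ}

namespace H449

theorem meas_tail : Measurable (fun x : Fin (n + 1) → ℝ => (Fin.tail x : Fin n → ℝ)) :=
  measurable_pi_lambda _ fun i => measurable_pi_apply (Fin.succ i)

theorem int_mul {K : Set (Fin (n + 1) → ℝ)} {q : (Fin n → ℝ) → ℝ} (hq : Measurable q)
    (hR : ∃ R, ∀ y, |q y| ≤ R) (m : ℝ) {f : (Fin (n + 1) → ℝ) → ℝ}
    (hf : IntegrableOn f K) :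
    IntegrableOn (fun x => (q (Fin.tail x) - m) * f x) K := by
  obtain ⟨R, hR⟩ := hR
  refine Integrable.bdd_mul (c := R + |m|) hf
    ((hq.comp meas_tail).sub_const m).aestronglyMeasurable ?_
  refine Filter.Eventually.of_forall fun x => ?_
  rw [Real.norm_eq_abs]
  exact (abs_sub _ _).trans (add_le_add (hR _) le_rfl)

end H449

open H449

/-- [V6] the covariance matrix of the moved body, `t ∈ {0, 1, -r}` -/
theorem cov_shift {K : Set (Fin (n + 1) → ℝ)} (hK : IsConvexBody K) {v q : (Fin n → ℝ) → ℝ}
    {t : ℝ} (hK1 : IsCompact (shift (fun y => t * v y) '' K)) (hq : Measurable q)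
    (hR : ∃ R, ∀ y, |q y| ≤ R)
    (hv : ∀ᵐ x ∂(volume.restrict K), v (Fin.tail x) = q (Fin.tail x)) (m : ℝ)
    (hm : m = (volume K).toReal⁻¹ * ∫ x in K, q (Fin.tail x)) :
    volume (shift (fun y => t * v y) '' K) = volume K ∧
    (∀ i j : Fin n, covMatrix (shift (fun y => t * v y) '' K) i.succ j.succ =
      covMatrix K i.succ j.succ) ∧
    (∀ i : Fin n, covMatrix (shift (fun y => t * v y) '' K) 0 i.succ =
      covMatrix K 0 i.succ + t * ((volume K).toReal⁻¹ *
        ∫ x in K, (q (Fin.tail x) - m) * (x i.succ - centroid K i.succ))) ∧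
    covMatrix (shift (fun y => t * v y) '' K) 0 0 =
      covMatrix K 0 0 + 2 * t * ((volume K).toReal⁻¹ *
        ∫ x in K, (q (Fin.tail x) - m) * (x 0 - centroid K 0)) +
      t ^ 2 * ((volume K).toReal⁻¹ * ∫ x in K, (q (Fin.tail x) - m) ^ 2) := by
  have hKc : IsCompact K := hK.2.1
  have hfin : volume K ≠ ⊤ := hKc.measure_lt_top.ne
  have key : ∀ φ : (Fin (n + 1) → ℝ) → ℝ, Continuous φ →
      ∫ x in shift (fun y => t * v y) '' K, φ x =
        ∫ x in K, φ (shift (fun y => t * v y) x) := fun φ hφ => shift_int hKc hK1 hφ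
  have hvol : volume (shift (fun y => t * v y) '' K) = volume K := by
    have h := key (fun _ => 1) continuous_const
    simp only [integral_const, smul_eq_mul, mul_one, Measure.real, Measure.restrict_apply_univ]
      at h
    exact (ENNReal.toReal_eq_toReal_iff' hK1.measure_lt_top.ne hfin).1 h
  have hsucc : ∀ (i : Fin n) (x : Fin (n + 1) → ℝ),
      shift (fun y => t * v y) x i.succ = x i.succ := fun i x => by
    simp [shift, Fin.tail]
  have hzero : ∀ x : Fin (n + 1) → ℝ,
      shift (fun y => t * v y) x 0 = x 0 + t * v (Fin.tail x) := fun x => by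
    simp [shift]
  have hci : ∀ i : Fin (n + 1), Continuous fun x : Fin (n + 1) → ℝ => x i := fun i =>
    continuous_apply i
  have hint : ∀ (i : Fin (n + 1)) (c : ℝ), IntegrableOn (fun x : Fin (n + 1) → ℝ => x i - c) K :=
    fun i c => ((hci i).sub continuous_const).continuousOn.integrableOn_compact hKc
  have hint1 : IntegrableOn (fun _ : Fin (n + 1) → ℝ => (1 : ℝ)) K :=
    continuous_const.continuousOn.integrableOn_compact hKc
  have hpos : 0 < (volume K).toReal := by
    refine ENNReal.toReal_pos ?_ hfin
    have := (isOpen_interior.measure_pos volume hK.2.2)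
    exact (this.trans_le (measure_mono interior_subset)).ne'
  have hq0 : IntegrableOn (fun x : Fin (n + 1) → ℝ => q (Fin.tail x)) K := by
    have := int_mul hq hR 0 hint1
    simpa using this
  have key2 : ∀ (i j : Fin (n + 1)) (c d : ℝ),
      ∫ x in shift (fun y => t * v y) '' K, (x i - c) * (x j - d) =
        ∫ x in K, (shift (fun y => t * v y) x i - c) * (shift (fun y => t * v y) x j - d) :=
    fun i j c d => key (fun x => (x i - c) * (x j - d)) (by fun_prop)
  have hint2 : ∀ (i j : Fin (n + 1)) (c d : ℝ),
      IntegrableOn (fun x : Fin (n + 1) → ℝ => (x i - c) * (x j - d)) K := fun i j c d =>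
    (by fun_prop : Continuous fun x : Fin (n + 1) → ℝ =>
      (x i - c) * (x j - d)).continuousOn.integrableOn_compact hKc
  have hcs : ∀ i : Fin n, centroid (shift (fun y => t * v y) '' K) i.succ =
      centroid K i.succ := fun i => by
    unfold centroid
    rw [hvol, key _ (hci _)]
    simp only [hsucc]
  have hc0 : centroid (shift (fun y => t * v y) '' K) 0 = centroid K 0 + t * m := by
    unfold centroid
    rw [hvol, key _ (hci _)]
    have h1 : ∫ x in K, shift (fun y => t * v y) x 0 =
        ∫ x in K, (x 0 + t * q (Fin.tail x)) := by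
      refine integral_congr_ae ?_
      filter_upwards [hv] with x hx
      rw [hzero, hx]
    rw [h1, integral_add ((hci 0).continuousOn.integrableOn_compact hKc) (hq0.const_mul t),
      integral_const_mul, hm]
    ring
  refine ⟨hvol, fun i j => ?_, fun i => ?_, ?_⟩
  · unfold covMatrix
    rw [hvol, key2]
    simp only [hsucc, hcs]
  · unfold covMatrix
    rw [hvol, key2]
    have h1 : ∫ x in K, (shift (fun y => t * v y) x 0 -
          centroid (shift (fun y => t * v y) '' K) 0) *
          (shift (fun y => t * v y) x i.succ -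
            centroid (shift (fun y => t * v y) '' K) i.succ) =
        ∫ x in K, ((x 0 - centroid K 0) * (x i.succ - centroid K i.succ) +
          t * ((q (Fin.tail x) - m) * (x i.succ - centroid K i.succ))) := by
      refine integral_congr_ae ?_
      filter_upwards [hv] with x hx
      rw [hzero, hx, hsucc, hcs, hc0]
      ring
    rw [h1, integral_add (hint2 0 i.succ _ _)
      ((int_mul hq hR m (hint i.succ _)).const_mul t), integral_const_mul]
    ring
  · unfold covMatrix
    rw [hvol, key2]
    have h1 : ∫ x in K, (shift (fun y => t * v y) x 0 -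
          centroid (shift (fun y => t * v y) '' K) 0) *
          (shift (fun y => t * v y) x 0 -
            centroid (shift (fun y => t * v y) '' K) 0) =
        ∫ x in K, (((x 0 - centroid K 0) * (x 0 - centroid K 0) +
          2 * t * ((q (Fin.tail x) - m) * (x 0 - centroid K 0))) +
          t ^ 2 * ((q (Fin.tail x) - m) ^ 2)) := by
      refine integral_congr_ae ?_
      filter_upwards [hv] with x hx
      rw [hzero, hx, hc0]
      ring
    have h2 : IntegrableOn (fun x : Fin (n + 1) → ℝ => (q (Fin.tail x) - m) ^ 2) K := by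
      have := int_mul hq hR m (int_mul hq hR m hint1)
      refine this.congr (Filter.Eventually.of_forall fun x => ?_)
      simp only [mul_one]
      ring
    have h3 : IntegrableOn (fun x : Fin (n + 1) → ℝ =>
        (x 0 - centroid K 0) * (x 0 - centroid K 0)) K := hint2 0 0 _ _
    have h4 : IntegrableOn (fun x : Fin (n + 1) → ℝ =>
        2 * t * ((q (Fin.tail x) - m) * (x 0 - centroid K 0))) K :=
      (int_mul hq hR m (hint 0 _)).const_mul (2 * t)
    have h34 : IntegrableOn (fun x : Fin (n + 1) → ℝ =>
        (x 0 - centroid K 0) * (x 0 - centroid K 0) +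
          2 * t * ((q (Fin.tail x) - m) * (x 0 - centroid K 0))) K := h3.add h4
    rw [h1, integral_add h34 (h2.const_mul _), integral_add h3 h4,
      integral_const_mul, integral_const_mul]
    ring

end Vale.Agent.P254.Mov
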