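import Vale.Agent.P254.Defs

/-!
P254, movements of a convex body along the chords of one direction: definitions.
-/

open MeasureTheory Set Matrix

namespace Vale.Agent.P254.Mov

/-- The chord over `y` in the direction of the first coordinate is translated by `v y`. -/
def shift {n : ℕ} (v : (Fin n → ℝ) → ℝ) (x : Fin (n + 1) → ℝ) : Fin (n + 1) → ℝ :=
  Fin.cons (x 0 + v (Fin.tail x)) (Fin.tail x)

end Vale.Agent.P254.Mov
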