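import Vale.Agent.P254.Mov.Defs

/-!
P254/Mov, leaf V4 (backup): linear regression of `q` on the coordinates.
-/

open MeasureTheory Set Matrix

namespace Vale.Agent.P254.Mov.H972

variable {n : ℕ}

theorem int_bdd {n : ℕ} {K : Set (Fin n → ℝ)} (hK : IsCompact K) {f : (Fin n → ℝ) → ℝ}
    (hf : Measurable f) {R : ℝ} (hR : ∀ x, |f x| ≤ R) : IntegrableOn f K := by
  refine Measure.integrableOn_of_bounded (M := R) hK.measure_lt_top.ne
    hf.aestronglyMeasurable (Filter.Eventually.of_forall fun x => ?_)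
  rw [Real.norm_eq_abs]
  exact hR x

/-- [V4] linear regression of `q` on the coordinates -/
theorem regress {K : Set (Fin (n + 1) → ℝ)} (hK : IsConvexBody K) {q : (Fin n → ℝ) → ℝ}
    (hq : Measurable q) (hR : ∃ R, ∀ y, |q y| ≤ R) (C : Matrix (Fin n) (Fin n) ℝ)
    (hC : ∀ i j, C i j = covMatrix K (Fin.succ i) (Fin.succ j)) (hC' : C.PosDef)
    (m g : ℝ) (β : Fin n → ℝ) (hm : m = (volume K).toReal⁻¹ * ∫ x in K, q (Fin.tail x))
    (hg : g = (volume K).toReal⁻¹ * ∫ x in K, (q (Fin.tail x) - m) ^ 2)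
    (hβ : ∀ i, β i = (volume K).toReal⁻¹ *
      ∫ x in K, (q (Fin.tail x) - m) * (x (Fin.succ i) - centroid K (Fin.succ i))) :
    β ⬝ᵥ (C⁻¹ *ᵥ β) ≤ g ∧ (g = β ⬝ᵥ (C⁻¹ *ᵥ β) →
      ∃ (a : Fin n → ℝ) (c : ℝ), ∀ᵐ x ∂(volume.restrict K),
        q (Fin.tail x) = a ⬝ᵥ Fin.tail x + c) := by
  obtain ⟨R, hR⟩ := hR
  have hc := hK.2.1
  have hV : 0 < (volume K).toReal :=
    ENNReal.toReal_pos ((isOpen_interior.measure_pos volume hK.2.2).trans_le
      (measure_mono interior_subset)).ne' hc.measure_ne_top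
  set V := (volume K).toReal with hVdef
  set a : Fin n → ℝ := C⁻¹ *ᵥ β with ha
  set f : (Fin (n + 1) → ℝ) → ℝ := fun x => q (Fin.tail x) - m with hf
  set u : Fin n → (Fin (n + 1) → ℝ) → ℝ := fun i x => x (Fin.succ i) - centroid K (Fin.succ i)
    with hu
  have htail : Measurable (Fin.tail : (Fin (n + 1) → ℝ) → (Fin n → ℝ)) :=
    measurable_pi_lambda _ fun i => measurable_pi_apply _
  have hfm : Measurable f := (hq.comp htail).sub_const m
  have hfb : ∀ x, |f x| ≤ R + |m| := fun x =>
    (abs_sub _ _).trans (by have := hR (Fin.tail x); linarith)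
  have hfi : IntegrableOn f K := int_bdd hc hfm hfb
  have hffi : IntegrableOn (fun x => f x * f x) K := by
    refine int_bdd hc (hfm.mul hfm) (R := (R + |m|) * (R + |m|)) fun x => ?_
    rw [abs_mul]
    exact mul_le_mul (hfb x) (hfb x) (abs_nonneg _) ((abs_nonneg _).trans (hfb x))
  have huc : ∀ i, Continuous (u i) := fun i => (continuous_apply _).sub continuous_const
  have hfu : ∀ i, IntegrableOn (fun x => f x * u i x) K := fun i =>
    hfi.mul_continuousOn (huc i).continuousOn hc
  have huu : ∀ i j, IntegrableOn (fun x => u i x * u j x) K := fun i j =>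
    (((huc i).mul (huc j)).continuousOn).integrableOn_compact hc
  -- the residual
  set ρ : (Fin (n + 1) → ℝ) → ℝ := fun x => f x - ∑ i, a i * u i x with hρ
  have hρ2 : ∀ x, ρ x ^ 2 = f x * f x - 2 * ∑ i, a i * (f x * u i x) +
      ∑ i, ∑ j, (a i * a j) * (u i x * u j x) := by
    intro x
    have e1 : (∑ i, a i * u i x) ^ 2 = ∑ i, ∑ j, (a i * a j) * (u i x * u j x) := by
      rw [sq, Finset.sum_mul_sum]
      exact Finset.sum_congr rfl fun i _ => Finset.sum_congr rfl fun j _ => by ring
    have e2 : f x * ∑ i, a i * u i x = ∑ i, a i * (f x * u i x) := by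
      rw [Finset.mul_sum]
      exact Finset.sum_congr rfl fun i _ => by ring
    rw [← e1, ← e2]
    simp only [hρ]
    ring
  have hi1 : IntegrableOn (fun x => ∑ i, a i * (f x * u i x)) K :=
    integrable_finsetSum _ fun i _ => (hfu i).const_mul (a i)
  have hi2 : IntegrableOn (fun x => ∑ i, ∑ j, (a i * a j) * (u i x * u j x)) K :=
    integrable_finsetSum _ fun i _ => integrable_finsetSum _ fun j _ => (huu i j).const_mul _
  have hi3 : IntegrableOn (fun x => f x * f x - 2 * ∑ i, a i * (f x * u i x)) K :=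
    hffi.sub (hi1.const_mul 2)
  have hρi : IntegrableOn (fun x => ρ x ^ 2) K := by
    have := hi3.add hi2
    refine this.congr (Filter.Eventually.of_forall fun x => ?_)
    exact (hρ2 x).symm
  have hint : V⁻¹ * ∫ x in K, ρ x ^ 2 = g - β ⬝ᵥ a := by
    have e1 : ∫ x in K, ρ x ^ 2 = (∫ x in K, f x * f x) -
        2 * (∑ i, a i * ∫ x in K, f x * u i x) +
        ∑ i, ∑ j, (a i * a j) * ∫ x in K, u i x * u j x := by
      simp_rw [hρ2]
      rw [integral_add hi3 hi2, integral_sub hffi (hi1.const_mul 2), integral_const_mul,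
        integral_finsetSum _ (fun i _ => (hfu i).const_mul (a i)),
        integral_finsetSum _ (fun i _ => integrable_finsetSum _ fun j _ =>
          (huu i j).const_mul _)]
      congr 1
      · congr 2
        exact Finset.sum_congr rfl fun i _ => integral_const_mul (a i) _
      · refine Finset.sum_congr rfl fun i _ => ?_
        rw [integral_finsetSum _ (fun j _ => (huu i j).const_mul _)]
        exact Finset.sum_congr rfl fun j _ => integral_const_mul _ _
    have e2 : g = V⁻¹ * ∫ x in K, f x * f x := by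
      rw [hg]
      congr 1
      refine integral_congr_ae (Filter.Eventually.of_forall fun x => ?_)
      simp only [hf]
      ring
    have e3 : ∑ i, a i * (V⁻¹ * ∫ x in K, f x * u i x) = β ⬝ᵥ a := by
      rw [dotProduct_comm]
      refine Finset.sum_congr rfl fun i _ => ?_
      rw [hβ i]
    have hCC : C *ᵥ a = β := by
      rw [ha, mulVec_mulVec, mul_nonsing_inv _ (isUnit_iff_ne_zero.mpr hC'.det_pos.ne'),
        one_mulVec]
    have e4 : ∑ i, ∑ j, (a i * a j) * (V⁻¹ * ∫ x in K, u i x * u j x) = β ⬝ᵥ a := by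
      rw [dotProduct_comm, ← hCC]
      simp only [dotProduct, mulVec]
      refine Finset.sum_congr rfl fun i _ => ?_
      rw [Finset.mul_sum]
      refine Finset.sum_congr rfl fun j _ => ?_
      rw [hC i j]
      simp only [covMatrix, hu]
      ring
    have e5 : V⁻¹ * (2 * ∑ i, a i * ∫ x in K, f x * u i x) =
        2 * ∑ i, a i * (V⁻¹ * ∫ x in K, f x * u i x) := by
      rw [mul_left_comm, Finset.mul_sum]
      congr 1
      exact Finset.sum_congr rfl fun i _ => by ring
    have e6 : V⁻¹ * ∑ i, ∑ j, (a i * a j) * ∫ x in K, u i x * u j x =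
        ∑ i, ∑ j, (a i * a j) * (V⁻¹ * ∫ x in K, u i x * u j x) := by
      rw [Finset.mul_sum]
      refine Finset.sum_congr rfl fun i _ => ?_
      rw [Finset.mul_sum]
      exact Finset.sum_congr rfl fun j _ => by ring
    rw [e1, mul_add, mul_sub, ← e2, e5, e3, e6, e4]
    ring
  have hnn : 0 ≤ ∫ x in K, ρ x ^ 2 := integral_nonneg fun x => sq_nonneg _
  refine ⟨?_, ?_⟩
  · have : 0 ≤ V⁻¹ * ∫ x in K, ρ x ^ 2 := mul_nonneg (inv_nonneg.mpr hV.le) hnn
    linarith
  · intro hgeq
    rw [hgeq, sub_self] at hint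
    have h0 : ∫ x in K, ρ x ^ 2 = 0 := by
      rcases mul_eq_zero.mp hint with h | h
      · exact absurd h (inv_ne_zero hV.ne')
      · exact h
    have h1 := (integral_eq_zero_iff_of_nonneg (fun x => sq_nonneg (ρ x)) hρi).mp h0
    refine ⟨a, m - ∑ i, a i * centroid K (Fin.succ i), ?_⟩
    filter_upwards [h1] with x hx
    have hx0 : ρ x = 0 := by
      have : ρ x ^ 2 = 0 := hx
      exact pow_eq_zero_iff (two_ne_zero) |>.mp this
    simp only [hρ, hf, hu, mul_sub, Finset.sum_sub_distrib] at hx0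
    simp only [dotProduct, Fin.tail] at hx0 ⊢
    linarith

end Vale.Agent.P254.Mov.H972
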