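import Vale.Agent.P254.Mov.Defs

/-! P254/Mov, leaves V1, V2: Fubini along the chords; the shift is measurable. -/

open MeasureTheory Set Matrix

namespace Vale.Agent.P254.Mov.H520

variable {n : ℕ}

/-- coordinates: first coordinate last -/
noncomputable def E (n : ℕ) : ((Fin n → ℝ) × ℝ) ≃ᵐ (Fin (n + 1) → ℝ) :=
  (MeasurableEquiv.prodComm).trans (MeasurableEquiv.piFinSuccAbove (fun _ => ℝ) 0).symm

theorem E_apply (p : (Fin n → ℝ) × ℝ) : E n p = Fin.cons p.2 p.1 := by
  show @Fin.insertNth n (fun _ => ℝ) 0 p.2 p.1 = _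
  exact Fin.insertNth_zero' _ _

theorem E_mp : MeasurePreserving (E n) (volume : Measure ((Fin n → ℝ) × ℝ)) volume := by
  have h1 : MeasurePreserving (MeasurableEquiv.prodComm : ((Fin n → ℝ) × ℝ) ≃ᵐ _)
      (volume : Measure ((Fin n → ℝ) × ℝ)) (volume : Measure (ℝ × (Fin n → ℝ))) :=
    Measure.measurePreserving_swap
  exact h1.trans ((volume_preserving_piFinSuccAbove (fun _ => ℝ) 0).symm _)

/-- Fubini -/
theorem fub {K : Set (Fin (n + 1) → ℝ)} (hK : MeasurableSet K) {F : (Fin (n + 1) → ℝ) → ℝ}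
    (hF : IntegrableOn F K) :
    ∫ x in K, F x = ∫ y : Fin n → ℝ, ∫ s : ℝ, K.indicator F (Fin.cons s y) := by
  have h1 : Integrable (fun p : (Fin n → ℝ) × ℝ => K.indicator F (E n p))
      ((volume : Measure (Fin n → ℝ)).prod (volume : Measure ℝ)) :=
    (E_mp.integrable_comp_emb (E n).measurableEmbedding).2 (hF.integrable_indicator hK)
  rw [← integral_indicator hK, ← E_mp.integral_comp (E n).measurableEmbedding,
    Measure.volume_eq_prod, integral_prod _ h1]
  simp only [E_apply]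

theorem meas_cons : Measurable fun p : (Fin n → ℝ) × ℝ => (Fin.cons p.2 p.1 : Fin (n + 1) → ℝ) := by
  have h := (E n).measurable
  have h2 : (fun p : (Fin n → ℝ) × ℝ => (Fin.cons p.2 p.1 : Fin (n + 1) → ℝ)) = E n :=
    funext fun p => (E_apply p).symm
  rw [h2]
  exact h

/-- the section -/
def sec (K : Set (Fin (n + 1) → ℝ)) (y : Fin n → ℝ) : Set ℝ :=
  {s | (Fin.cons s y : Fin (n + 1) → ℝ) ∈ K}

theorem sec_meas {K : Set (Fin (n + 1) → ℝ)} (hK : MeasurableSet K) (y : Fin n → ℝ) :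
    MeasurableSet (sec K y) :=
  (meas_cons.comp (measurable_const.prodMk measurable_id)) hK

theorem ind_sec (K : Set (Fin (n + 1) → ℝ)) (F : (Fin (n + 1) → ℝ) → ℝ) (y : Fin n → ℝ) :
    (fun s => K.indicator F (Fin.cons s y)) = (sec K y).indicator fun s => F (Fin.cons s y) := rfl

theorem int_sec {K : Set (Fin (n + 1) → ℝ)} (hK : MeasurableSet K) (F : (Fin (n + 1) → ℝ) → ℝ)
    (y : Fin n → ℝ) :
    ∫ s, K.indicator F (Fin.cons s y) = ∫ s in sec K y, F (Fin.cons s y) := by
  rw [ind_sec, integral_indicator (sec_meas hK y)]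

theorem mem_shift {K : Set (Fin (n + 1) → ℝ)} {v : (Fin n → ℝ) → ℝ} {s : ℝ} {y : Fin n → ℝ} :
    (Fin.cons s y : Fin (n + 1) → ℝ) ∈ shift v '' K ↔
      (Fin.cons (s - v y) y : Fin (n + 1) → ℝ) ∈ K := by
  constructor
  · rintro ⟨x, hx, he⟩
    have h1 : Fin.tail x = y := by
      have := congrArg Fin.tail he
      rwa [shift, Fin.tail_cons, Fin.tail_cons] at this
    have h2 : x 0 + v y = s := by
      have := congrFun he 0
      rwa [shift, Fin.cons_zero, Fin.cons_zero, h1] at this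
    have h3 : (Fin.cons (s - v y) y : Fin (n + 1) → ℝ) = x := by
      rw [← h2, add_sub_cancel_right, ← h1, Fin.cons_self_tail]
    rw [h3]
    exact hx
  · intro h
    refine ⟨_, h, ?_⟩
    rw [shift, Fin.tail_cons, Fin.cons_zero, sub_add_cancel]

theorem shift_cons (v : (Fin n → ℝ) → ℝ) (s : ℝ) (y : Fin n → ℝ) :
    shift v (Fin.cons s y) = Fin.cons (s + v y) y := by
  rw [shift, Fin.tail_cons, Fin.cons_zero]

/-- the inner integral of the moved body -/
theorem inner_shift {K : Set (Fin (n + 1) → ℝ)} (v : (Fin n → ℝ) → ℝ)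
    (F : (Fin (n + 1) → ℝ) → ℝ) (y : Fin n → ℝ) :
    ∫ s, (shift v '' K).indicator F (Fin.cons s y) =
      ∫ s, K.indicator (fun x => F (shift v x)) (Fin.cons s y) := by
  rw [← integral_add_right_eq_self (fun s => (shift v '' K).indicator F (Fin.cons s y)) (v y)]
  congr 1
  funext s
  by_cases h : (Fin.cons s y : Fin (n + 1) → ℝ) ∈ K
  · have h1 : (Fin.cons (s + v y) y : Fin (n + 1) → ℝ) ∈ shift v '' K := by
      rw [mem_shift, add_sub_cancel_right]
      exact h
    rw [indicator_of_mem h1, indicator_of_mem h, shift_cons]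
  · have h1 : (Fin.cons (s + v y) y : Fin (n + 1) → ℝ) ∉ shift v '' K := by
      rw [mem_shift, add_sub_cancel_right]
      exact h
    rw [indicator_of_notMem h1, indicator_of_notMem h]

theorem sec_bdd {K : Set (Fin (n + 1) → ℝ)} (hK : IsCompact K) :
    ∃ R : ℝ, 0 ≤ R ∧ ∀ x ∈ K, ∀ i, |x i| ≤ R := by
  obtain ⟨R, hR⟩ := hK.isBounded.exists_norm_le
  refine ⟨max R 0, le_max_right _ _, fun x hx i => ?_⟩
  exact ((norm_le_pi_norm x i).trans (hR x hx)).trans (le_max_left _ _)

theorem sec_vol {K : Set (Fin (n + 1) → ℝ)} (hK : IsCompact K) (y : Fin n → ℝ) :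
    volume (sec K y) < ⊤ := by
  obtain ⟨R, _, hR⟩ := sec_bdd hK
  have h : sec K y ⊆ Icc (-R) R := fun s hs => abs_le.1 (by
    have := hR _ hs 0
    rwa [Fin.cons_zero] at this)
  exact (measure_mono h).trans_lt (by rw [Real.volume_Icc]; exact ENNReal.ofReal_lt_top)

theorem sec_integrable {K : Set (Fin (n + 1) → ℝ)} (hK : IsCompact K) (y : Fin n → ℝ) (c : ℝ) :
    IntegrableOn (fun s : ℝ => s + c) (sec K y) := by
  obtain ⟨R, _, hR⟩ := sec_bdd hK
  have h : sec K y ⊆ Icc (-R) R := fun s hs => abs_le.1 (by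
    have := hR _ hs 0
    rwa [Fin.cons_zero] at this)
  have h2 : IntegrableOn (fun s : ℝ => s + c) (Icc (-R) R) :=
    Continuous.integrableOn_Icc (by fun_prop)
  exact h2.mono_set h

/-- the measurable version of `v` -/
noncomputable def qq (K : Set (Fin (n + 1) → ℝ)) (K1 : Set (Fin (n + 1) → ℝ))
    (y : Fin n → ℝ) : ℝ :=
  ((∫ s : ℝ, K1.indicator (fun x => x 0) (Fin.cons s y)) -
    ∫ s : ℝ, K.indicator (fun x => x 0) (Fin.cons s y)) /
    ∫ s : ℝ, K.indicator (fun _ => (1 : ℝ)) (Fin.cons s y)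

theorem inner_measurable {K : Set (Fin (n + 1) → ℝ)} (hK : MeasurableSet K)
    {F : (Fin (n + 1) → ℝ) → ℝ} (hF : Measurable F) :
    Measurable fun y : Fin n → ℝ => ∫ s : ℝ, K.indicator F (Fin.cons s y) := by
  have h1 : StronglyMeasurable fun p : (Fin n → ℝ) × ℝ =>
      K.indicator F (Fin.cons p.2 p.1) :=
    ((hF.indicator hK).comp meas_cons).stronglyMeasurable
  exact h1.integral_prod_right'.measurable

theorem qq_measurable {K K1 : Set (Fin (n + 1) → ℝ)} (hK : MeasurableSet K)
    (hK1 : MeasurableSet K1) : Measurable (qq K K1) :=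
  ((inner_measurable hK1 (measurable_pi_apply 0)).sub
    (inner_measurable hK (measurable_pi_apply 0))).div (inner_measurable hK measurable_const)

theorem len_eq {K : Set (Fin (n + 1) → ℝ)} (hK : IsCompact K) (y : Fin n → ℝ) :
    ∫ s : ℝ, K.indicator (fun _ => (1 : ℝ)) (Fin.cons s y) = (volume (sec K y)).toReal := by
  rw [int_sec hK.measurableSet, setIntegral_const, smul_eq_mul, mul_one]
  rfl

theorem qq_eq {K : Set (Fin (n + 1) → ℝ)} {v : (Fin n → ℝ) → ℝ} (hK : IsCompact K)
    {y : Fin n → ℝ} (hy : volume (sec K y) ≠ 0) : qq K (shift v '' K) y = v y := by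
  have hl : (0 : ℝ) < (volume (sec K y)).toReal :=
    ENNReal.toReal_pos hy (sec_vol hK y).ne
  unfold qq
  rw [inner_shift, len_eq hK, int_sec hK.measurableSet, int_sec hK.measurableSet]
  have h1 : ∫ s in sec K y, shift v (Fin.cons s y) 0 = (∫ s in sec K y, s) +
      (volume (sec K y)).toReal * v y := by
    have h2 : ∀ s : ℝ, shift v (Fin.cons s y) 0 = s + v y := fun s => by
      rw [shift_cons, Fin.cons_zero]
    simp only [h2]
    have h3 := sec_integrable hK y 0
    simp only [add_zero] at h3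
    rw [integral_add h3 (integrableOn_const (sec_vol hK y).ne), setIntegral_const, smul_eq_mul]
    rfl
  have h4 : ∫ s in sec K y, (Fin.cons s y : Fin (n + 1) → ℝ) 0 = ∫ s in sec K y, s := rfl
  rw [h1, h4, add_sub_cancel_left, mul_div_cancel_left₀ _ hl.ne']

theorem ae_eq {K : Set (Fin (n + 1) → ℝ)} {v : (Fin n → ℝ) → ℝ} (hK : IsCompact K) :
    ∀ᵐ x ∂(volume.restrict K), v (Fin.tail x) = qq K (shift v '' K) (Fin.tail x) := by
  have htail : Measurable fun x : Fin (n + 1) → ℝ => (Fin.tail x : Fin n → ℝ) :=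
    measurable_pi_lambda _ fun i => measurable_pi_apply _
  have hl : Measurable fun y : Fin n → ℝ => volume (sec K y) :=
    measurable_measure_prodMk_left (meas_cons hK.measurableSet)
  have hB : MeasurableSet {x : Fin (n + 1) → ℝ | volume (sec K (Fin.tail x)) = 0} :=
    (hl.comp htail) (measurableSet_singleton 0)
  have h0 : volume (K ∩ {x : Fin (n + 1) → ℝ | volume (sec K (Fin.tail x)) = 0}) = 0 := by
    rw [← E_mp.measure_preimage_emb (E n).measurableEmbedding, Measure.volume_eq_prod,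
      Measure.measure_prod_null ((E n).measurable (hK.measurableSet.inter hB))]
    refine Filter.Eventually.of_forall fun y => ?_
    by_cases hy : volume (sec K y) = 0
    · refine measure_mono_null (fun s hs => ?_) hy
      have : E n (y, s) ∈ K := hs.1
      rwa [E_apply] at this
    · have : Prod.mk y ⁻¹' ((E n) ⁻¹' (K ∩ {x | volume (sec K (Fin.tail x)) = 0})) = ∅ := by
        refine eq_empty_iff_forall_notMem.2 fun s hs => hy ?_
        have h2 : volume (sec K (Fin.tail (E n (y, s)))) = 0 := hs.2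
        rwa [E_apply, Fin.tail_cons] at h2
      show volume (Prod.mk y ⁻¹' ((E n) ⁻¹' (K ∩ {x | volume (sec K (Fin.tail x)) = 0}))) = 0
      rw [this, measure_empty]
  rw [ae_restrict_iff' hK.measurableSet]
  have h1 : ∀ᵐ x ∂(volume : Measure (Fin (n + 1) → ℝ)),
      x ∉ K ∩ {x : Fin (n + 1) → ℝ | volume (sec K (Fin.tail x)) = 0} :=
    measure_eq_zero_iff_ae_notMem.1 h0
  filter_upwards [h1] with x hx hxK
  exact (qq_eq hK fun h => hx ⟨hxK, h⟩).symm

theorem qq_bdd {K : Set (Fin (n + 1) → ℝ)} {v : (Fin n → ℝ) → ℝ} (hK : IsCompact K)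
    (hK1 : IsCompact (shift v '' K)) : ∃ R : ℝ, ∀ y, |qq K (shift v '' K) y| ≤ R := by
  obtain ⟨R, hR0, hR⟩ := sec_bdd hK
  obtain ⟨R1, hR10, hR1⟩ := sec_bdd hK1
  refine ⟨R + R1, fun y => ?_⟩
  by_cases hy : volume (sec K y) = 0
  · have : qq K (shift v '' K) y = 0 := by
      unfold qq
      rw [len_eq hK, hy, ENNReal.toReal_zero, div_zero]
    rw [this, abs_zero]
    linarith
  · rw [qq_eq hK hy]
    obtain ⟨s, hs⟩ := nonempty_of_measure_ne_zero hy
    have h1 := hR _ hs 0
    have h2 := hR1 _ (mem_image_of_mem (shift v) hs) 0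
    rw [shift_cons] at h2
    rw [Fin.cons_zero] at h1 h2
    rw [abs_le] at h1 h2 ⊢
    constructor <;> linarith [h1.1, h1.2, h2.1, h2.2]

/-- [V2] -/
theorem shift_meas {K : Set (Fin (n + 1) → ℝ)} {v : (Fin n → ℝ) → ℝ} (hK : IsCompact K)
    (hK1 : IsCompact (shift v '' K)) :
    ∃ q : (Fin n → ℝ) → ℝ, Measurable q ∧ (∃ R, ∀ y, |q y| ≤ R) ∧
      ∀ᵐ x ∂(volume.restrict K), v (Fin.tail x) = q (Fin.tail x) :=
  ⟨_, qq_measurable hK.measurableSet hK1.measurableSet, qq_bdd hK hK1, ae_eq hK⟩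

/-- [V1] -/
theorem shift_int {K : Set (Fin (n + 1) → ℝ)} {v : (Fin n → ℝ) → ℝ} (hK : IsCompact K)
    (hK1 : IsCompact (shift v '' K)) {φ : (Fin (n + 1) → ℝ) → ℝ} (hφ : Continuous φ) :
    ∫ x in shift v '' K, φ x = ∫ x in K, φ (shift v x) := by
  have hq := qq_measurable (K1 := shift v '' K) hK.measurableSet hK1.measurableSet
  obtain ⟨R', hR'⟩ := qq_bdd hK hK1
  obtain ⟨R, hR0, hR⟩ := sec_bdd hK
  have htail : Measurable fun x : Fin (n + 1) → ℝ => (Fin.tail x : Fin n → ℝ) :=
    measurable_pi_lambda _ fun i => measurable_pi_apply _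
  have hsm : Measurable (shift (qq K (shift v '' K))) := by
    have h1 : Measurable fun x : Fin (n + 1) → ℝ =>
        ((Fin.tail x : Fin n → ℝ), x 0 + qq K (shift v '' K) (Fin.tail x)) :=
      htail.prodMk ((measurable_pi_apply 0).add (hq.comp htail))
    exact meas_cons.comp h1
  have e1 : ∫ x in K, φ (shift v x) = ∫ x in K, φ (shift (qq K (shift v '' K)) x) := by
    refine integral_congr_ae ?_
    filter_upwards [ae_eq (v := v) hK] with x hx
    unfold shift
    rw [hx]
    rfl
  have hint : IntegrableOn (fun x => φ (shift (qq K (shift v '' K)) x)) K := by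
    obtain ⟨C, hC⟩ := (isCompact_closedBall (0 : Fin (n + 1) → ℝ) (R + |R'|)).exists_bound_of_continuousOn
      hφ.continuousOn
    refine Measure.integrableOn_of_bounded (M := C) hK.measure_lt_top.ne
      (hφ.measurable.comp hsm).aestronglyMeasurable ?_
    rw [ae_restrict_iff' hK.measurableSet]
    refine Filter.Eventually.of_forall fun x hx => hC _ ?_
    rw [mem_closedBall_zero_iff, pi_norm_le_iff_of_nonneg (by positivity)]
    intro i
    refine Fin.cases ?_ (fun j => ?_) i
    · show |x 0 + qq K (shift v '' K) (Fin.tail x)| ≤ _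
      exact (abs_add_le _ _).trans (add_le_add (hR x hx 0) ((hR' _).trans (le_abs_self _)))
    · show |x j.succ| ≤ _
      exact (hR x hx _).trans (le_add_of_nonneg_right (abs_nonneg _))
  rw [e1, fub hK1.measurableSet (hφ.continuousOn.integrableOn_compact hK1),
    fub hK.measurableSet hint]
  congr 1
  funext y
  rw [inner_shift, int_sec hK.measurableSet, int_sec hK.measurableSet]
  by_cases hy : volume (sec K y) = 0
  · rw [Measure.restrict_eq_zero.2 hy, integral_zero_measure, integral_zero_measure]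
  · refine setIntegral_congr_fun (sec_meas hK.measurableSet y) fun s _ => ?_
    simp only [shift_cons]
    rw [qq_eq hK hy]

end Vale.Agent.P254.Mov.H520

namespace Vale.Agent.P254.Mov

/-- [V1] Fubini; the chords are translated -/
theorem shift_int {n : ℕ} {K : Set (Fin (n + 1) → ℝ)} {v : (Fin n → ℝ) → ℝ} (hK : IsCompact K)
    (hK1 : IsCompact (shift v '' K)) {φ : (Fin (n + 1) → ℝ) → ℝ} (hφ : Continuous φ) :
    ∫ x in shift v '' K, φ x = ∫ x in K, φ (shift v x) :=
  H520.shift_int hK hK1 hφ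

end Vale.Agent.P254.Mov
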