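import Vale.Agent.P254.Mov.Defs

/-!
P254, movements along chords: an almost everywhere affine movement onto a simplex.
-/

open MeasureTheory Set Matrix

namespace Vale.Agent.P254.Mov

namespace H598

variable {n : ℕ}

/-- the linear part of the inverse shear -/
def lin (a : Fin n → ℝ) : (Fin (n + 1) → ℝ) →ₗ[ℝ] (Fin (n + 1) → ℝ) where
  toFun x := Fin.cons (x 0 - a ⬝ᵥ Fin.tail x) (Fin.tail x)
  map_add' x y := by
    ext i
    refine Fin.cases ?_ (fun j => ?_) i
    · have e : Fin.tail (x + y) = Fin.tail x + Fin.tail y := rfl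
      simp only [Fin.cons_zero, Pi.add_apply, e, dotProduct_add]
      ring
    · simp [Fin.tail]
  map_smul' t x := by
    ext i
    refine Fin.cases ?_ (fun j => ?_) i
    · have e : Fin.tail (t • x) = t • Fin.tail x := rfl
      simp only [Fin.cons_zero, Pi.smul_apply, e, dotProduct_smul, smul_eq_mul, RingHom.id_apply]
      ring
    · simp [Fin.tail]

/-- the inverse shear -/
noncomputable def inv (a : Fin n → ℝ) (c : ℝ) : (Fin (n + 1) → ℝ) →ᵃ[ℝ] (Fin (n + 1) → ℝ) :=
  (lin a).toAffineMap +
    AffineMap.const ℝ (Fin (n + 1) → ℝ) (Fin.cons (-c) (0 : Fin n → ℝ) : Fin (n + 1) → ℝ)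

theorem inv_apply (a : Fin n → ℝ) (c : ℝ) (x : Fin (n + 1) → ℝ) :
    inv a c x = Fin.cons (x 0 - (a ⬝ᵥ Fin.tail x + c)) (Fin.tail x) := by
  ext i
  refine Fin.cases ?_ (fun j => ?_) i
  · show (x 0 - a ⬝ᵥ Fin.tail x) + (-c) = x 0 - (a ⬝ᵥ Fin.tail x + c)
    ring
  · show Fin.tail x j + 0 = Fin.tail x j
    ring

theorem inv_shift (a : Fin n → ℝ) (c : ℝ) (x : Fin (n + 1) → ℝ) :
    inv a c (shift (fun y => a ⬝ᵥ y + c) x) = x := by
  rw [inv_apply]
  ext i
  refine Fin.cases ?_ (fun j => ?_) i
  · simp [shift]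
  · simp [shift, Fin.tail]

theorem inv_injective (a : Fin n → ℝ) (c : ℝ) : Function.Injective (inv a c) := by
  intro x y hxy
  rw [inv_apply, inv_apply] at hxy
  have h1 : Fin.tail x = Fin.tail y := by
    have := congrArg Fin.tail hxy
    simpa using this
  have h0 := congrFun hxy 0
  simp only [Fin.cons_zero, h1] at h0
  rw [← Fin.cons_self_tail x, ← Fin.cons_self_tail y, h1]
  congr 1
  linarith

theorem isSimplex_inv {K : Set (Fin (n + 1) → ℝ)} (hK : IsSimplex K) (a : Fin n → ℝ) (c : ℝ) :
    IsSimplex (inv a c '' K) := by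
  obtain ⟨p, hp, rfl⟩ := hK
  refine ⟨inv a c ∘ p, hp.map' _ (inv_injective a c), ?_⟩
  rw [AffineMap.image_convexHull, ← range_comp]

theorem cont_shift (a : Fin n → ℝ) (c : ℝ) : Continuous (shift (fun y => a ⬝ᵥ y + c)) := by
  refine continuous_pi fun i => ?_
  refine Fin.cases ?_ (fun j => ?_) i
  · have : Continuous fun x : Fin (n + 1) → ℝ => x 0 + (∑ j, a j * x j.succ + c) := by fun_prop
    exact this
  · exact continuous_apply j.succ

/-- a compact nonempty set of reals is not contained in a translate by a nonzero number -/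
theorem eq_zero_of_translate {C : Set ℝ} (hC : IsCompact C) (hne : C.Nonempty) {δ : ℝ}
    (h : ∀ s ∈ C, s + δ ∈ C) : δ = 0 := by
  obtain ⟨p, hp, hpm⟩ := hC.exists_isMinOn hne continuousOn_id
  obtain ⟨q, hq, hqm⟩ := hC.exists_isMaxOn hne continuousOn_id
  have h1 : p ≤ p + δ := hpm (h p hp)
  have h2 : q + δ ≤ q := hqm (h q hq)
  linarith

end H598

open H598

variable {n : ℕ}

/-- [V5] equality: if `v` is affine almost everywhere and the moved body is a simplex, then
`K` is a simplex -/
theorem simplex_of_affine {K : Set (Fin (n + 1) → ℝ)} {v : (Fin n → ℝ) → ℝ}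
    (hK : IsConvexBody K) (hK1 : IsCompact (shift v '' K)) (hs : IsSimplex (shift v '' K))
    (a : Fin n → ℝ) (c : ℝ)
    (h : ∀ᵐ x ∂(volume.restrict K), v (Fin.tail x) = a ⬝ᵥ Fin.tail x + c) : IsSimplex K := by
  set f : (Fin (n + 1) → ℝ) → (Fin (n + 1) → ℝ) := shift (fun y => a ⬝ᵥ y + c) with hf
  have hfc : Continuous f := cont_shift a c
  -- the affine image is contained in the moved body
  have hsub : ∀ x ∈ K, f x ∈ shift v '' K := by
    intro x hx
    by_contra hnx
    set U : Set (Fin (n + 1) → ℝ) := f ⁻¹' (shift v '' K)ᶜ with hU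
    have hUo : IsOpen U := hK1.isClosed.isOpen_compl.preimage hfc
    have hxU : x ∈ U := hnx
    have hxc : x ∈ closure (interior K) := by
      rw [hK.1.closure_interior_eq_closure_of_nonempty_interior hK.2.2]
      exact subset_closure hx
    have hne : (U ∩ interior K).Nonempty := mem_closure_iff.1 hxc U hUo hxU
    have hpos : 0 < volume (U ∩ interior K) :=
      (hUo.inter isOpen_interior).measure_pos volume hne
    have hae : ∀ᵐ z ∂(volume.restrict (U ∩ interior K)),
        v (Fin.tail z) = a ⬝ᵥ Fin.tail z + c :=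
      ae_restrict_of_ae_restrict_of_subset (inter_subset_right.trans interior_subset) h
    have hmem : ∀ᵐ z ∂(volume.restrict (U ∩ interior K)), z ∈ U ∩ interior K :=
      ae_restrict_mem (hUo.inter isOpen_interior).measurableSet
    have hnb : (ae (volume.restrict (U ∩ interior K))).NeBot := by
      rw [ae_neBot]
      intro h0
      rw [Measure.restrict_eq_zero] at h0
      exact hpos.ne' h0
    obtain ⟨z, hz1, hz2⟩ := (hae.and hmem).exists
    apply hz2.1
    refine ⟨z, interior_subset hz2.2, ?_⟩
    simp only [hf, shift, hz1]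
  -- the movement is affine everywhere on `K`
  have hv : ∀ x ∈ K, v (Fin.tail x) = a ⬝ᵥ Fin.tail x + c := by
    intro x hx
    set y := Fin.tail x with hy
    set C : Set ℝ := {s | (Fin.cons s y : Fin (n + 1) → ℝ) ∈ K} with hC
    have hCc : IsCompact C := by
      have e : C = (fun z : Fin (n + 1) → ℝ => z 0) '' (K ∩ {z | Fin.tail z = y}) := by
        ext s
        constructor
        · intro hs
          exact ⟨Fin.cons s y, ⟨hs, by simp⟩, by simp⟩
        · rintro ⟨z, ⟨hz, hzy⟩, rfl⟩
          show (Fin.cons (z 0) y : Fin (n + 1) → ℝ) ∈ K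
          rw [← show Fin.tail z = y from hzy, Fin.cons_self_tail]
          exact hz
      rw [e]
      have hcl : IsClosed {z : Fin (n + 1) → ℝ | Fin.tail z = y} :=
        isClosed_eq (continuous_pi fun i => continuous_apply i.succ) continuous_const
      exact (hK.2.1.inter_right hcl).image (continuous_apply 0)
    have hCn : C.Nonempty := ⟨x 0, by
      show (Fin.cons (x 0) y : Fin (n + 1) → ℝ) ∈ K
      rw [hy, Fin.cons_self_tail]
      exact hx⟩
    have hδ := eq_zero_of_translate hCc hCn (δ := a ⬝ᵥ y + c - v y) (by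
      intro s hs
      obtain ⟨z, hz, hzf⟩ := hsub _ hs
      have h1 : Fin.tail z = y := by
        have := congrArg Fin.tail hzf
        simpa [hf, shift] using this
      have h0 := congrFun hzf 0
      simp only [hf, shift, Fin.cons_zero, Fin.tail_cons, h1] at h0
      show (Fin.cons (s + (a ⬝ᵥ y + c - v y)) y : Fin (n + 1) → ℝ) ∈ K
      have e : s + (a ⬝ᵥ y + c - v y) = z 0 := by linarith
      rw [e, ← h1, Fin.cons_self_tail]
      exact hz)
    linarith
  have himg : shift v '' K = f '' K := by
    apply image_congr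
    intro x hx
    simp only [hf, shift, hv x hx]
  have hback : inv a c '' (shift v '' K) = K := by
    rw [himg, image_image]
    have e : ∀ x, inv a c (f x) = x := inv_shift a c
    simp only [e, image_id']
  rw [← hback]
  exact isSimplex_inv hs a c

end Vale.Agent.P254.Mov
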