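import Vale.Agent.P254.Mov.Move678
import Vale.Agent.P254.Mov.Shift
import Vale.Agent.P254.Mov.Bord408
import Vale.Agent.P254.Mov.Regress972
import Vale.Agent.P254.Mov.Simp
import Vale.Agent.P254.Mov.CovShift520

/-!
P254/Mov: closure of the good bodies under movements (V7), from the landed leaves.
-/

open MeasureTheory Set Matrix

namespace Vale.Agent.P254.Mov.H678

open Vale.Agent.P254.FV (Good)

variable {n : ℕ}

theorem good_move {K : Set (Fin (n + 1) → ℝ)} {v : (Fin n → ℝ) → ℝ} {r : ℝ} (hr : 0 < r)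
    (hK : IsConvexBody K) (h1 : Good (shift v '' K))
    (h2 : Good (shift (fun y => -(r * v y)) '' K)) : Good K :=
  good_move_of (fun hK hK1 => H520.shift_meas hK hK1)
    (fun C hC a e g b β M h00 h0 h1 h2 r => H408.det_bord C hC a e g b β M h00 h0 h1 h2 r)
    (fun hK _ hq hR C hC hC' m g β hm hg hβ => H972.regress hK hq hR C hC hC' m g β hm hg hβ)
    (fun hK hK1 hs a c h => simplex_of_affine hK hK1 hs a c h)
    (fun hK _ _ _ hK1 hq hR hv m hm => H520.cov_shift hK hK1 hq hR hv m hm) hr hK h1 h2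

end Vale.Agent.P254.Mov.H678
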