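import Vale.Agent.P254.Mov.Defs

/-!
P254, movements: the displacement is a bounded measurable function almost everywhere on the body.
-/

open MeasureTheory Set Matrix

namespace Vale.Agent.P254.Mov

namespace H956

variable {n : ℕ}

/-- join -/
noncomputable abbrev cn (s : ℝ) (y : Fin n → ℝ) : Fin (n + 1) → ℝ :=
  Fin.cons (α := fun _ => ℝ) s y

theorem cn_cont : Continuous fun z : ℝ × (Fin n → ℝ) => cn z.1 z.2 := by
  refine continuous_pi fun i => ?_
  refine Fin.cases ?_ (fun j => ?_) i
  · simpa [cn] using continuous_fst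
  · simpa [cn, Function.comp_def] using
      (continuous_apply j).comp (continuous_snd (X := ℝ) (Y := Fin n → ℝ))

theorem tail_meas : Measurable (fun x : Fin (n + 1) → ℝ => (Fin.tail x : Fin n → ℝ)) :=
  measurable_pi_lambda _ fun j => measurable_pi_apply (Fin.succ j)

/-- first moment of the chord -/
noncomputable def fm (K : Set (Fin (n + 1) → ℝ)) (y : Fin n → ℝ) : ℝ :=
  ∫ s : ℝ, K.indicator (fun x => x 0) (cn s y)

/-- length of the chord -/
noncomputable def ln (K : Set (Fin (n + 1) → ℝ)) (y : Fin n → ℝ) : ENNReal :=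
  volume {s : ℝ | cn s y ∈ K}

theorem fm_meas {K : Set (Fin (n + 1) → ℝ)} (hK : MeasurableSet K) : Measurable (fm K) := by
  have h1 : Measurable fun z : ℝ × (Fin n → ℝ) => K.indicator (fun x => x 0) (cn z.1 z.2) :=
    ((measurable_pi_apply (0 : Fin (n + 1))).indicator hK).comp cn_cont.measurable
  exact (h1.stronglyMeasurable.integral_prod_left').measurable

theorem ln_meas {K : Set (Fin (n + 1) → ℝ)} (hK : MeasurableSet K) : Measurable (ln K) := by
  have h1 : MeasurableSet ((fun z : ℝ × (Fin n → ℝ) => cn z.1 z.2) ⁻¹' K) :=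
    cn_cont.measurable hK
  exact measurable_measure_prodMk_right h1

theorem exists_bd {K : Set (Fin (n + 1) → ℝ)} (hK : IsCompact K) :
    ∃ R : ℝ, ∀ x ∈ K, |x 0| ≤ R := by
  have h1 := (hK.image (continuous_apply (0 : Fin (n + 1)))).isBounded
  obtain ⟨R, hR⟩ := h1.exists_norm_le
  exact ⟨R, fun x hx => hR _ ⟨x, hx, rfl⟩⟩

theorem ln_ne_top {K : Set (Fin (n + 1) → ℝ)} (hK : IsCompact K) (y : Fin n → ℝ) :
    ln K y ≠ ⊤ := by
  obtain ⟨R, hR⟩ := exists_bd hK
  have h1 : {s : ℝ | cn s y ∈ K} ⊆ Icc (-R) R := fun s hs => abs_le.1 (by simpa [cn] using hR _ hs)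
  exact ((measure_mono h1).trans_lt (by simp)).ne

theorem chord_meas {K : Set (Fin (n + 1) → ℝ)} (hK : MeasurableSet K) (y : Fin n → ℝ) :
    MeasurableSet {s : ℝ | cn s y ∈ K} :=
  (cn_cont.measurable.comp measurable_prodMk_right) hK

theorem ind_eq (K : Set (Fin (n + 1) → ℝ)) (y : Fin n → ℝ) (s : ℝ) :
    K.indicator (fun x => x 0) (cn s y) = {s : ℝ | cn s y ∈ K}.indicator (fun s => s) s := by
  by_cases h : cn s y ∈ K
  · rw [indicator_of_mem h, indicator_of_mem (show s ∈ {s : ℝ | cn s y ∈ K} from h)]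
    simp [cn]
  · rw [indicator_of_notMem h, indicator_of_notMem (show s ∉ {s : ℝ | cn s y ∈ K} from h)]

theorem fm_shift {K : Set (Fin (n + 1) → ℝ)} {v : (Fin n → ℝ) → ℝ} (hK : IsCompact K)
    (y : Fin n → ℝ) : fm (shift v '' K) y = fm K y + v y * (ln K y).toReal := by
  have hm := chord_meas hK.measurableSet y
  obtain ⟨R, hR⟩ := exists_bd hK
  have hsub : {s : ℝ | cn s y ∈ K} ⊆ Icc (-R) R := fun s hs =>
    abs_le.1 (by simpa [cn] using hR _ hs)
  have h1 : ∀ s : ℝ, (shift v '' K).indicator (fun x => x 0) (cn s y) =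
      (fun t : ℝ => {s : ℝ | cn s y ∈ K}.indicator (fun t => t + v y) t) (s - v y) := by
    intro s
    have h2 : cn s y ∈ shift v '' K ↔ cn (s - v y) y ∈ K := by
      constructor
      · rintro ⟨x, hx, hxe⟩
        have h3 : Fin.tail x = y := by
          have := congrArg Fin.tail hxe
          simpa [shift, cn, Fin.tail_cons] using this
        have h4 : x 0 + v y = s := by
          have := congrFun hxe 0
          simpa [shift, cn, h3] using this
        have h5 : cn (s - v y) y = x := by
          rw [← h4, ← h3]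
          simp only [cn, add_sub_cancel_right]
          exact Fin.cons_self_tail x
        rwa [h5]
      · intro h
        refine ⟨_, h, ?_⟩
        simp [shift, cn, Fin.tail_cons]
    by_cases h : cn s y ∈ shift v '' K
    · rw [indicator_of_mem h]
      simp only
      rw [indicator_of_mem (show s - v y ∈ {s : ℝ | cn s y ∈ K} from h2.1 h)]
      simp [cn]
    · rw [indicator_of_notMem h]
      simp only
      exact (indicator_of_notMem (s := {s : ℝ | cn s y ∈ K})
        (show s - v y ∉ {s : ℝ | cn s y ∈ K} from fun h' => h (h2.2 h')) _).symm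
  unfold fm
  rw [integral_congr_ae (ae_of_all _ h1),
    integral_sub_right_eq_self (fun t : ℝ => {s : ℝ | cn s y ∈ K}.indicator (fun t => t + v y) t)]
  rw [integral_congr_ae (ae_of_all _ (ind_eq K y))]
  rw [integral_indicator hm, integral_indicator hm, integral_add]
  · rw [setIntegral_const]
    simp [ln, Measure.real, mul_comm]
  · exact (continuous_id.integrableOn_Icc).mono_set hsub
  · exact (continuous_const.integrableOn_Icc).mono_set hsub

theorem null_chords {K : Set (Fin (n + 1) → ℝ)} (hK : IsCompact K) :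
    volume {x | x ∈ K ∧ ln K (Fin.tail x) = 0} = 0 := by
  have hS : MeasurableSet {x | x ∈ K ∧ ln K (Fin.tail x) = 0} :=
    hK.measurableSet.inter (((ln_meas hK.measurableSet).comp tail_meas) (measurableSet_singleton 0))
  have he := volume_preserving_piFinSuccAbove (fun _ : Fin (n + 1) => ℝ) 0
  have h1 := he.symm.measure_preimage hS.nullMeasurableSet
  rw [← h1]
  have h2 : MeasurableSet ((MeasurableEquiv.piFinSuccAbove (fun _ : Fin (n + 1) => ℝ) 0).symm ⁻¹'
      {x | x ∈ K ∧ ln K (Fin.tail x) = 0}) := (MeasurableEquiv.measurable _) hS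
  rw [Measure.volume_eq_prod, Measure.prod_apply_symm h2, lintegral_eq_zero_iff']
  · refine ae_of_all _ fun y => ?_
    have h3 : (fun s : ℝ => (s, y)) ⁻¹'
        ((MeasurableEquiv.piFinSuccAbove (fun _ : Fin (n + 1) => ℝ) 0).symm ⁻¹'
          {x | x ∈ K ∧ ln K (Fin.tail x) = 0}) = {s : ℝ | cn s y ∈ K ∧ ln K y = 0} := by
      ext s
      have h4 : (MeasurableEquiv.piFinSuccAbove (fun _ : Fin (n + 1) => ℝ) 0).symm (s, y) =
          cn s y := by
        simp [MeasurableEquiv.piFinSuccAbove, cn]
        rfl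
      simp only [mem_preimage, mem_ofPred_eq, h4]
      simp [cn, Fin.tail_cons]
    show volume _ = 0
    rw [h3]
    by_cases h : ln K y = 0
    · refine measure_mono_null (fun s hs => hs.1) (show volume {s : ℝ | cn s y ∈ K} = 0 from h)
    · simp [h]
  · exact (measurable_measure_prodMk_right h2).aemeasurable

end H956

open H956

/-- [V2] `v` is (almost everywhere on `K`) a bounded measurable function: on the chords of
positive length it is the difference of the two midpoints -/
theorem shift_meas {n : ℕ} {K : Set (Fin (n + 1) → ℝ)} {v : (Fin n → ℝ) → ℝ} (hK : IsCompact K)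
    (hK1 : IsCompact (shift v '' K)) :
    ∃ q : (Fin n → ℝ) → ℝ, Measurable q ∧ (∃ R, ∀ y, |q y| ≤ R) ∧
      ∀ᵐ x ∂(volume.restrict K), v (Fin.tail x) = q (Fin.tail x) := by
  obtain ⟨R, hR⟩ := exists_bd hK
  obtain ⟨R', hR'⟩ := exists_bd hK1
  have hbd : ∀ x ∈ K, |v (Fin.tail x)| ≤ |R| + |R'| := by
    intro x hx
    have h1 := hR x hx
    have h2 := hR' _ ⟨x, hx, rfl⟩
    simp only [shift, Fin.cons_zero] at h2
    have h3 : v (Fin.tail x) = (x 0 + v (Fin.tail x)) - x 0 := by ring
    rw [h3]
    calc |x 0 + v (Fin.tail x) - x 0| ≤ |x 0 + v (Fin.tail x)| + |x 0| := abs_sub _ _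
      _ ≤ |R'| + |R| := add_le_add (h2.trans (le_abs_self _)) (h1.trans (le_abs_self _))
      _ = _ := add_comm _ _
  refine ⟨fun y => max (-(|R| + |R'|)) (min (|R| + |R'|)
    ((fm (shift v '' K) y - fm K y) / (ln K y).toReal)), ?_, ⟨|R| + |R'|, fun y => ?_⟩, ?_⟩
  · refine measurable_const.max (measurable_const.min ?_)
    exact ((fm_meas hK1.measurableSet).sub (fm_meas hK.measurableSet)).div
      (ln_meas hK.measurableSet).ennreal_toReal
  · have h0 : 0 ≤ |R| + |R'| := by positivity
    rw [abs_le]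
    exact ⟨le_max_left _ _, max_le (by linarith) (min_le_left _ _)⟩
  · rw [ae_restrict_iff' hK.measurableSet]
    have h1 := measure_eq_zero_iff_ae_notMem.1 (null_chords hK)
    filter_upwards [h1] with x hx hxK
    have h2 : ln K (Fin.tail x) ≠ 0 := fun h => hx ⟨hxK, h⟩
    have h3 : (ln K (Fin.tail x)).toReal ≠ 0 := by
      rw [ENNReal.toReal_ne_zero]
      exact ⟨h2, ln_ne_top hK _⟩
    have h4 : (fm (shift v '' K) (Fin.tail x) - fm K (Fin.tail x)) / (ln K (Fin.tail x)).toReal =
        v (Fin.tail x) := by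
      rw [fm_shift hK, div_eq_iff h3]
      ring
    have h5 := abs_le.1 (hbd x hxK)
    rw [h4, min_eq_right h5.2, max_eq_right h5.1]

end Vale.Agent.P254.Mov
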