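import Vale.Agent.P254.Mov.Defs

/-!
P254: the displacement of a movement along chords is almost everywhere a bounded measurable
function of the chord.
-/

open MeasureTheory Set

namespace Vale.Agent.P254.Mov

namespace H434

variable {n : ℕ}

/-- the chord over `y` -/
def ch (K : Set (Fin (n + 1) → ℝ)) (y : Fin n → ℝ) : Set ℝ :=
  {s | (Fin.cons s y : Fin (n + 1) → ℝ) ∈ K}

theorem continuous_cns :
    Continuous fun p : ℝ × (Fin n → ℝ) => (Fin.cons p.1 p.2 : Fin (n + 1) → ℝ) := by
  refine continuous_pi fun i => ?_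
  refine Fin.cases ?_ (fun j => ?_) i
  · simpa using continuous_fst
  · simp only [Fin.cons_succ]
    exact (continuous_apply j).comp continuous_snd

theorem ch_compact {K : Set (Fin (n + 1) → ℝ)} (hK : IsCompact K) (y : Fin n → ℝ) :
    IsCompact (ch K y) := by
  have h1 : IsCompact (K ∩ {x | Fin.tail x = y}) := by
    refine hK.inter_right (isClosed_eq ?_ continuous_const)
    exact continuous_pi fun i => continuous_apply (Fin.succ i)
  have h2 : ch K y = (fun x : Fin (n + 1) → ℝ => x 0) '' (K ∩ {x | Fin.tail x = y}) := by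
    ext s
    constructor
    · intro hs
      exact ⟨Fin.cons s y, ⟨hs, Fin.tail_cons _ _⟩, Fin.cons_zero _ _⟩
    · rintro ⟨x, ⟨hx, hxy⟩, rfl⟩
      have hxy' : Fin.tail x = y := hxy
      show (Fin.cons (x 0) y : Fin (n + 1) → ℝ) ∈ K
      rw [← hxy', Fin.cons_self_tail]
      exact hx
  rw [h2]
  exact h1.image (continuous_apply 0)

theorem ch_shift (K : Set (Fin (n + 1) → ℝ)) (v : (Fin n → ℝ) → ℝ) (y : Fin n → ℝ) (s : ℝ) :
    s ∈ ch (shift v '' K) y ↔ s - v y ∈ ch K y := by
  constructor
  · rintro ⟨x, hx, hxs⟩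
    have h1 : Fin.tail (shift v x) = y := by rw [hxs, Fin.tail_cons]
    have h2 : Fin.tail x = y := by
      rw [← h1]
      simp [shift]
    have h3 : x 0 + v (Fin.tail x) = s := by
      have := congrFun hxs 0
      simpa [shift] using this
    show (Fin.cons (s - v y) y : Fin (n + 1) → ℝ) ∈ K
    rw [← h3, h2, add_sub_cancel_right]
    have h4 : (Fin.cons (x 0) y : Fin (n + 1) → ℝ) = x := by rw [← h2, Fin.cons_self_tail]
    rw [h4]
    exact hx
  · intro hs
    refine ⟨Fin.cons (s - v y) y, hs, ?_⟩
    simp [shift]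

/-- first moment of the chord -/
noncomputable def fm (K : Set (Fin (n + 1) → ℝ)) (y : Fin n → ℝ) : ℝ :=
  ∫ s, (ch K y).indicator (fun s => s) s

theorem fm_shift {K : Set (Fin (n + 1) → ℝ)} (hK : IsCompact K) (v : (Fin n → ℝ) → ℝ)
    (y : Fin n → ℝ) :
    fm (shift v '' K) y = fm K y + v y * (volume (ch K y)).toReal := by
  have hc := ch_compact hK y
  have h1 : ∀ s, (ch (shift v '' K) y).indicator (fun s => s) s =
      (fun u => (ch K y).indicator (fun u => u + v y) u) (s - v y) := by
    intro s
    by_cases h : s ∈ ch (shift v '' K) y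
    · have h' := (ch_shift K v y s).1 h
      simp only [indicator_of_mem h, indicator_of_mem h']
      ring
    · have h' : s - v y ∉ ch K y := fun h' => h ((ch_shift K v y s).2 h')
      simp only [indicator_of_notMem h, indicator_of_notMem h']
  unfold fm
  simp_rw [h1]
  rw [integral_sub_right_eq_self (fun u => (ch K y).indicator (fun u => u + v y) u) (v y),
    integral_indicator hc.measurableSet, integral_indicator hc.measurableSet,
    integral_add (f := fun x : ℝ => x) (g := fun _ : ℝ => v y)
      (continuous_id.continuousOn.integrableOn_compact hc)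
      (continuous_const.continuousOn.integrableOn_compact hc)]
  rw [setIntegral_const, smul_eq_mul, mul_comm]
  rfl

theorem measurable_fm {K : Set (Fin (n + 1) → ℝ)} (hK : IsCompact K) : Measurable (fm K) := by
  have h1 : MeasurableSet {p : ℝ × (Fin n → ℝ) | (Fin.cons p.1 p.2 : Fin (n + 1) → ℝ) ∈ K} :=
    continuous_cns.measurable hK.measurableSet
  have h2 : Measurable ({p : ℝ × (Fin n → ℝ) |
      (Fin.cons p.1 p.2 : Fin (n + 1) → ℝ) ∈ K}.indicator fun p => p.1) :=
    measurable_fst.indicator h1
  have h3 := h2.stronglyMeasurable.integral_prod_left' (μ := (volume : Measure ℝ))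
  exact h3.measurable

theorem measurable_len {K : Set (Fin (n + 1) → ℝ)} (hK : IsCompact K) :
    Measurable fun y => volume (ch K y) := by
  have h1 : MeasurableSet {p : ℝ × (Fin n → ℝ) | (Fin.cons p.1 p.2 : Fin (n + 1) → ℝ) ∈ K} :=
    continuous_cns.measurable hK.measurableSet
  exact measurable_measure_prodMk_right h1

theorem ae_len {K : Set (Fin (n + 1) → ℝ)} (hK : IsCompact K) :
    ∀ᵐ x ∂(volume.restrict K), volume (ch K (Fin.tail x)) ≠ 0 := by
  rw [ae_restrict_iff' hK.measurableSet]
  have hmp := (volume_preserving_piFinSuccAbove (fun _ : Fin (n + 1) => ℝ) 0).symm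
  rw [← hmp.map_eq, ae_map_iff hmp.measurable.aemeasurable]
  swap
  · refine MeasurableSet.imp hK.measurableSet ?_
    have h1 : Measurable fun x : Fin (n + 1) → ℝ => Fin.tail x :=
      measurable_pi_lambda _ fun i => measurable_pi_apply _
    exact ((measurable_len hK).comp h1) (measurableSet_singleton 0).compl
  have hN : MeasurableSet {p : ℝ × (Fin n → ℝ) | (Fin.cons p.1 p.2 : Fin (n + 1) → ℝ) ∈ K ∧
      volume (ch K p.2) = 0} :=
    (continuous_cns.measurable hK.measurableSet).inter
      (((measurable_len hK).comp measurable_snd) (measurableSet_singleton 0))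
  rw [ae_iff]
  have h2 : (volume : Measure (ℝ × (Fin n → ℝ))) {p | (Fin.cons p.1 p.2 : Fin (n + 1) → ℝ) ∈ K ∧
      volume (ch K p.2) = 0} = 0 := by
    rw [Measure.volume_eq_prod, Measure.prod_apply_symm hN]
    refine (lintegral_congr fun y => ?_).trans lintegral_zero
    by_cases h : volume (ch K y) = 0
    · refine measure_mono_null ?_ h
      intro s hs
      exact hs.1
    · have : (fun x => (x, y)) ⁻¹' {p : ℝ × (Fin n → ℝ) |
          (Fin.cons p.1 p.2 : Fin (n + 1) → ℝ) ∈ K ∧ volume (ch K p.2) = 0} = ∅ := by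
        refine eq_empty_of_forall_notMem fun s hs => h hs.2
      rw [this, measure_empty]
  refine measure_mono_null ?_ h2
  intro p hp
  simp only [mem_ofPred_eq, Classical.not_imp, not_not, ne_eq] at hp
  have h3 : (MeasurableEquiv.piFinSuccAbove (fun _ : Fin (n + 1) => ℝ) 0).symm p =
      (Fin.cons p.1 p.2 : Fin (n + 1) → ℝ) := by
    ext i
    refine Fin.cases ?_ (fun j => ?_) i
    · simp [MeasurableEquiv.piFinSuccAbove]
    · simp [MeasurableEquiv.piFinSuccAbove]
  rw [h3] at hp
  rw [Fin.tail_cons] at hp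
  exact hp

end H434

open H434 in
/-- [V2] -/
theorem shift_meas {n : ℕ} {K : Set (Fin (n + 1) → ℝ)} {v : (Fin n → ℝ) → ℝ} (hK : IsCompact K)
    (hK1 : IsCompact (shift v '' K)) :
    ∃ q : (Fin n → ℝ) → ℝ, Measurable q ∧ (∃ R, ∀ y, |q y| ≤ R) ∧
      ∀ᵐ x ∂(volume.restrict K), v (Fin.tail x) = q (Fin.tail x) := by
  obtain ⟨B₀, hB₀⟩ := hK.exists_bound_of_continuousOn (continuous_apply (0 : Fin (n + 1))).continuousOn
  obtain ⟨B₁, hB₁⟩ := hK1.exists_bound_of_continuousOn
    (continuous_apply (0 : Fin (n + 1))).continuousOn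
  set B := |B₀| + |B₁| with hB
  have hB0 : 0 ≤ B := by positivity
  refine ⟨fun y => max (-B) (min B ((fm (shift v '' K) y - fm K y) / (volume (ch K y)).toReal)),
    ?_, ⟨B, fun y => ?_⟩, ?_⟩
  · exact measurable_const.max (measurable_const.min
      (((measurable_fm hK1).sub (measurable_fm hK)).div (measurable_len hK).ennreal_toReal))
  · rw [abs_le]
    exact ⟨le_max_left _ _, max_le (by linarith) (min_le_left _ _)⟩
  · filter_upwards [ae_len hK, ae_restrict_mem hK.measurableSet] with x hx hxK
    have h1 : (volume (ch K (Fin.tail x))).toReal ≠ 0 :=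
      ENNReal.toReal_ne_zero.2 ⟨hx, (ch_compact hK _).measure_lt_top.ne⟩
    rw [fm_shift hK, add_sub_cancel_left, mul_div_cancel_right₀ _ h1]
    have h2 : |x 0| ≤ B₀ := by simpa [Real.norm_eq_abs] using hB₀ x hxK
    have h3 : |x 0 + v (Fin.tail x)| ≤ B₁ := by
      have := hB₁ (shift v x) (mem_image_of_mem _ hxK)
      simpa [shift, Real.norm_eq_abs] using this
    have h4 : |v (Fin.tail x)| ≤ B := by
      have e : v (Fin.tail x) = (x 0 + v (Fin.tail x)) - x 0 := by ring
      rw [e]
      refine (abs_sub _ _).trans ?_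
      rw [hB]
      linarith [le_abs_self B₀, le_abs_self B₁]
    rw [abs_le] at h4
    rw [min_eq_right h4.2, max_eq_right h4.1]

end Vale.Agent.P254.Mov
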