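import Vale.Agent.P254.Mov.Defs
import Vale.Agent.P254.Mov.Bord408
import Vale.Agent.P254.Mov.Simp
import Vale.Agent.P254.Unc.Near
import Vale.Agent.P254.FV.Good

/-!
P254: the class `Good` is closed under movements along the chords of one direction.
-/

open MeasureTheory Set Matrix

namespace Vale.Agent.P254.Mov.H261

open Vale.Agent.P254.FV (Good Dn simpC)

variable {n : ℕ}

/-- a bordered symmetric matrix -/
def bm (C : Matrix (Fin n) (Fin n) ℝ) (a : ℝ) (b : Fin n → ℝ) :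
    Matrix (Fin (n + 1)) (Fin (n + 1)) ℝ :=
  Matrix.of fun i j => (Fin.cons (Fin.cons a b : Fin (n + 1) → ℝ)
    (fun i' => Fin.cons (b i') (C i')) : Fin (n + 1) → Fin (n + 1) → ℝ) i j

theorem bm_zz (C : Matrix (Fin n) (Fin n) ℝ) (a : ℝ) (b : Fin n → ℝ) : bm C a b 0 0 = a := by
  simp [bm]

theorem bm_zs (C : Matrix (Fin n) (Fin n) ℝ) (a : ℝ) (b : Fin n → ℝ) (i : Fin n) :
    bm C a b 0 i.succ = b i := by
  simp [bm]

theorem bm_sz (C : Matrix (Fin n) (Fin n) ℝ) (a : ℝ) (b : Fin n → ℝ) (i : Fin n) :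
    bm C a b i.succ 0 = b i := by
  simp [bm]

theorem bm_ss (C : Matrix (Fin n) (Fin n) ℝ) (a : ℝ) (b : Fin n → ℝ) (i j : Fin n) :
    bm C a b i.succ j.succ = C i j := by
  simp [bm]

theorem cov_symm (K : Set (Fin (n + 1) → ℝ)) (i j : Fin (n + 1)) :
    covMatrix K i j = covMatrix K j i := by
  unfold covMatrix
  congr 1
  refine integral_congr_ae (Filter.Eventually.of_forall fun x => ?_)
  simp only
  ring

theorem eq_bm {K : Set (Fin (n + 1) → ℝ)} {C : Matrix (Fin n) (Fin n) ℝ} {a : ℝ} {b : Fin n → ℝ}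
    (h2 : ∀ i j : Fin n, covMatrix K i.succ j.succ = C i j)
    (h1 : ∀ i : Fin n, covMatrix K 0 i.succ = b i) (h0 : covMatrix K 0 0 = a) :
    covMatrix K = bm C a b := by
  ext i j
  refine Fin.cases ?_ (fun i => ?_) i <;> refine Fin.cases ?_ (fun j => ?_) j
  · rw [bm_zz, h0]
  · rw [bm_zs, h1]
  · rw [bm_sz, cov_symm, h1]
  · rw [bm_ss, h2]

/-- [V7] with [V2], [V4], [V6] as hypotheses -/
theorem good_move_of
    (shift_meas : ∀ {K : Set (Fin (n + 1) → ℝ)} {v : (Fin n → ℝ) → ℝ}, IsCompact K →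
      IsCompact (shift v '' K) →
      ∃ q : (Fin n → ℝ) → ℝ, Measurable q ∧ (∃ R, ∀ y, |q y| ≤ R) ∧
        ∀ᵐ x ∂(volume.restrict K), v (Fin.tail x) = q (Fin.tail x))
    (regress : ∀ {K : Set (Fin (n + 1) → ℝ)}, IsConvexBody K → ∀ {q : (Fin n → ℝ) → ℝ},
      Measurable q → (∃ R, ∀ y, |q y| ≤ R) → ∀ C : Matrix (Fin n) (Fin n) ℝ,
      (∀ i j, C i j = covMatrix K (Fin.succ i) (Fin.succ j)) → C.PosDef →
      ∀ (m g : ℝ) (β : Fin n → ℝ), m = (volume K).toReal⁻¹ * ∫ x in K, q (Fin.tail x) →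
      g = (volume K).toReal⁻¹ * ∫ x in K, (q (Fin.tail x) - m) ^ 2 →
      (∀ i, β i = (volume K).toReal⁻¹ *
        ∫ x in K, (q (Fin.tail x) - m) * (x (Fin.succ i) - centroid K (Fin.succ i))) →
      β ⬝ᵥ (C⁻¹ *ᵥ β) ≤ g ∧ (g = β ⬝ᵥ (C⁻¹ *ᵥ β) →
        ∃ (a : Fin n → ℝ) (c : ℝ), ∀ᵐ x ∂(volume.restrict K),
          q (Fin.tail x) = a ⬝ᵥ Fin.tail x + c))
    (cov_shift : ∀ {K : Set (Fin (n + 1) → ℝ)}, IsConvexBody K → ∀ {v q : (Fin n → ℝ) → ℝ}
      {t : ℝ}, IsCompact (shift (fun y => t * v y) '' K) → Measurable q →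
      (∃ R, ∀ y, |q y| ≤ R) →
      (∀ᵐ x ∂(volume.restrict K), v (Fin.tail x) = q (Fin.tail x)) → ∀ m : ℝ,
      m = (volume K).toReal⁻¹ * ∫ x in K, q (Fin.tail x) →
      volume (shift (fun y => t * v y) '' K) = volume K ∧
      (∀ i j : Fin n, covMatrix (shift (fun y => t * v y) '' K) i.succ j.succ =
        covMatrix K i.succ j.succ) ∧
      (∀ i : Fin n, covMatrix (shift (fun y => t * v y) '' K) 0 i.succ =
        covMatrix K 0 i.succ + t * ((volume K).toReal⁻¹ *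
          ∫ x in K, (q (Fin.tail x) - m) * (x i.succ - centroid K i.succ))) ∧
      covMatrix (shift (fun y => t * v y) '' K) 0 0 =
        covMatrix K 0 0 + 2 * t * ((volume K).toReal⁻¹ *
          ∫ x in K, (q (Fin.tail x) - m) * (x 0 - centroid K 0)) +
        t ^ 2 * ((volume K).toReal⁻¹ * ∫ x in K, (q (Fin.tail x) - m) ^ 2))
    {K : Set (Fin (n + 1) → ℝ)} {v : (Fin n → ℝ) → ℝ} {r : ℝ} (hr : 0 < r)
    (hK : IsConvexBody K) (h1 : Good (shift v '' K))
    (h2 : Good (shift (fun y => -(r * v y)) '' K)) : Good K := by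
  obtain ⟨q, hq, hR, hv⟩ := shift_meas hK.2.1 h1.body.2.1
  set V : ℝ := (volume K).toReal with hV
  have hVpos : 0 < V := ENNReal.toReal_pos ((isOpen_interior.measure_pos volume hK.2.2).trans_le
      (measure_mono interior_subset)).ne' hK.2.1.measure_ne_top
  set C : Matrix (Fin n) (Fin n) ℝ := (covMatrix K).submatrix Fin.succ Fin.succ with hC
  have hCP : C.PosDef := (covMatrix_posDef hK).submatrix (Fin.succ_injective n)
  obtain ⟨m, hm⟩ : ∃ m : ℝ, m = V⁻¹ * ∫ x in K, q (Fin.tail x) := ⟨_, rfl⟩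
  obtain ⟨g, hg⟩ : ∃ g : ℝ, g = V⁻¹ * ∫ x in K, (q (Fin.tail x) - m) ^ 2 := ⟨_, rfl⟩
  obtain ⟨e, he⟩ : ∃ e : ℝ, e = V⁻¹ * ∫ x in K, (q (Fin.tail x) - m) * (x 0 - centroid K 0) :=
    ⟨_, rfl⟩
  obtain ⟨β, hβ⟩ : ∃ β : Fin n → ℝ, ∀ i, β i = V⁻¹ *
      ∫ x in K, (q (Fin.tail x) - m) * (x (Fin.succ i) - centroid K (Fin.succ i)) :=
    ⟨_, fun _ => rfl⟩
  obtain ⟨r1, r2⟩ := regress hK hq hR C (fun i j => rfl) hCP m g β hm hg hβ
  -- the three matrices
  set M : ℝ → Matrix (Fin (n + 1)) (Fin (n + 1)) ℝ := fun t =>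
    bm C (covMatrix K 0 0 + 2 * t * e + t ^ 2 * g) (fun i => covMatrix K 0 i.succ + t * β i)
    with hM
  have hdet := H408.det_bord C hCP (covMatrix K 0 0) e g (fun i => covMatrix K 0 i.succ) β M
    (fun t => bm_zz _ _ _) (fun t i => bm_zs _ _ _ _) (fun t i => bm_sz _ _ _ _)
    (fun t i j => bm_ss _ _ _ _ _) r
  have hM0 : M 0 = covMatrix K := by
    rw [hM]
    refine (eq_bm (fun i j => rfl) (fun i => ?_) ?_).symm
    · simp
    · simp
  have e1 : (fun y => (1 : ℝ) * v y) = v := by funext y; ring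
  have e2 : (fun y => (-r) * v y) = (fun y => -(r * v y)) := by funext y; ring
  have c1 : IsCompact (shift (fun y => (1 : ℝ) * v y) '' K) := by rw [e1]; exact h1.body.2.1
  have c2 : IsCompact (shift (fun y => (-r) * v y) '' K) := by rw [e2]; exact h2.body.2.1
  obtain ⟨a1, a2, a3, a4⟩ := cov_shift hK c1 hq hR hv m hm
  obtain ⟨b1, b2, b3, b4⟩ := cov_shift hK c2 hq hR hv m hm
  rw [e1] at a1 a2 a3 a4
  rw [e2] at b1 b2 b3 b4
  have hM1 : M 1 = covMatrix (shift v '' K) := by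
    rw [hM]
    refine (eq_bm (fun i j => a2 i j) (fun i => ?_) ?_).symm
    · rw [a3, hβ]
    · rw [a4, he, hg]
  have hM2 : M (-r) = covMatrix (shift (fun y => -(r * v y)) '' K) := by
    rw [hM]
    refine (eq_bm (fun i j => b2 i j) (fun i => ?_) ?_).symm
    · rw [b3, hβ]
    · rw [b4, he, hg]
  have hD1 : (M 1).det ≤ simpC (n + 1) * V ^ 2 := by
    have := h1.le
    unfold Dn at this
    rw [a1, ← hV, div_le_iff₀ (by positivity), ← hM1] at this
    exact this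
  have hD2 : (M (-r)).det ≤ simpC (n + 1) * V ^ 2 := by
    have := h2.le
    unfold Dn at this
    rw [b1, ← hV, div_le_iff₀ (by positivity), ← hM2] at this
    exact this
  have hCd : 0 < C.det := hCP.det_pos
  have hgap : 0 ≤ r * (1 + r) * (C.det * (g - β ⬝ᵥ (C⁻¹ *ᵥ β))) := by
    have : 0 ≤ g - β ⬝ᵥ (C⁻¹ *ᵥ β) := sub_nonneg.2 r1
    positivity
  have hr1 : 0 < 1 + r := by linarith
  have hle : (M 0).det ≤ simpC (n + 1) * V ^ 2 := by
    have h5 : (1 + r) * (M 0).det ≤ (1 + r) * (simpC (n + 1) * V ^ 2) := by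
      nlinarith [mul_le_mul_of_nonneg_left hD1 hr.le]
    exact le_of_mul_le_mul_left h5 hr1
  refine ⟨h1.one_le, hK, ?_, fun heq => ?_⟩
  · unfold Dn
    rw [← hV, div_le_iff₀ (by positivity), ← hM0]
    exact hle
  · unfold Dn at heq
    rw [← hV, div_eq_iff (by positivity), ← hM0] at heq
    have h6 : r * (1 + r) * (C.det * (g - β ⬝ᵥ (C⁻¹ *ᵥ β))) = 0 := by
      nlinarith [mul_le_mul_of_nonneg_left hD1 hr.le]
    have h7 : (M 1).det = simpC (n + 1) * V ^ 2 := by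
      have h8 : r * (simpC (n + 1) * V ^ 2) ≤ r * (M 1).det := by
        nlinarith
      exact le_antisymm hD1 (le_of_mul_le_mul_left h8 hr)
    have h9 : g = β ⬝ᵥ (C⁻¹ *ᵥ β) := by
      rcases mul_eq_zero.1 h6 with h | h
      · exact absurd h (by positivity)
      · rcases mul_eq_zero.1 h with h | h
        · exact absurd h hCd.ne'
        · linarith
    obtain ⟨a, c, hac⟩ := r2 h9
    refine simplex_of_affine hK h1.body.2.1 (h1.eq ?_) a c ?_
    · unfold Dn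
      rw [a1, ← hV, div_eq_iff (by positivity), ← hM1]
      exact h7
    · filter_upwards [hv, hac] with x hx hx'
      rw [hx, hx']

end Vale.Agent.P254.Mov.H261
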