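import Vale.Agent.P254.Mov.Shift
import Vale.Agent.P254.Mov.Bord408
import Vale.Agent.P254.Mov.Simp
import Vale.Agent.P254.Fib.Transfer863
import Vale.Agent.P254.Bdl.B2
import Vale.Agent.P254.Bdl.B7
import Vale.Agent.P254.Bdl.B10
import Vale.Agent.P254.Bdl.B17
import Vale.Agent.P254.Bdl.B20

/-!
P254: closure under movements along the chords of one direction.
-/

open MeasureTheory Set Matrix

namespace Vale.Agent.P254.Mov.H393

open Vale.Agent.P254.FV (Good Dn simpC simpC_pos)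

variable {n : ℕ}

/-- the statement of `regress` [V4] -/
def RegressSt (n : ℕ) : Prop := ∀ {K : Set (Fin (n + 1) → ℝ)}, IsConvexBody K →
  ∀ {q : (Fin n → ℝ) → ℝ}, Measurable q → (∃ R, ∀ y, |q y| ≤ R) →
  ∀ (C : Matrix (Fin n) (Fin n) ℝ), (∀ i j, C i j = covMatrix K (Fin.succ i) (Fin.succ j)) →
  C.PosDef → ∀ (m g : ℝ) (β : Fin n → ℝ), m = (volume K).toReal⁻¹ * ∫ x in K, q (Fin.tail x) →
    g = (volume K).toReal⁻¹ * ∫ x in K, (q (Fin.tail x) - m) ^ 2 →
    (∀ i, β i = (volume K).toReal⁻¹ *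
      ∫ x in K, (q (Fin.tail x) - m) * (x (Fin.succ i) - centroid K (Fin.succ i))) →
    β ⬝ᵥ (C⁻¹ *ᵥ β) ≤ g ∧ (g = β ⬝ᵥ (C⁻¹ *ᵥ β) →
      ∃ (a : Fin n → ℝ) (c : ℝ), ∀ᵐ x ∂(volume.restrict K),
        q (Fin.tail x) = a ⬝ᵥ Fin.tail x + c)

/-- the statement of `cov_shift` [V6] -/
def CovShiftSt (n : ℕ) : Prop := ∀ {K : Set (Fin (n + 1) → ℝ)}, IsConvexBody K →
  ∀ {v q : (Fin n → ℝ) → ℝ} {t : ℝ}, IsCompact (shift (fun y => t * v y) '' K) → Measurable q →
  (∃ R, ∀ y, |q y| ≤ R) → (∀ᵐ x ∂(volume.restrict K), v (Fin.tail x) = q (Fin.tail x)) →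
  ∀ (m : ℝ), m = (volume K).toReal⁻¹ * ∫ x in K, q (Fin.tail x) →
    volume (shift (fun y => t * v y) '' K) = volume K ∧
    (∀ i j : Fin n, covMatrix (shift (fun y => t * v y) '' K) i.succ j.succ =
      covMatrix K i.succ j.succ) ∧
    (∀ i : Fin n, covMatrix (shift (fun y => t * v y) '' K) 0 i.succ =
      covMatrix K 0 i.succ + t * ((volume K).toReal⁻¹ *
        ∫ x in K, (q (Fin.tail x) - m) * (x i.succ - centroid K i.succ))) ∧
    covMatrix (shift (fun y => t * v y) '' K) 0 0 =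
      covMatrix K 0 0 + 2 * t * ((volume K).toReal⁻¹ *
        ∫ x in K, (q (Fin.tail x) - m) * (x 0 - centroid K 0)) +
      t ^ 2 * ((volume K).toReal⁻¹ * ∫ x in K, (q (Fin.tail x) - m) ^ 2)

theorem cov_symm {m : ℕ} (K : Set (Fin m → ℝ)) (i j : Fin m) :
    covMatrix K i j = covMatrix K j i := by
  unfold covMatrix
  congr 1
  refine integral_congr_ae (Filter.Eventually.of_forall fun x => ?_)
  simp only
  ring

/-- a bordered matrix -/
def bord (a : ℝ) (b : Fin n → ℝ) (C : Matrix (Fin n) (Fin n) ℝ) :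
    Matrix (Fin (n + 1)) (Fin (n + 1)) ℝ :=
  fun i j => Fin.cases (Fin.cases a (fun j => b j) j)
    (fun i => Fin.cases (b i) (fun j => C i j) j) i

theorem eq_bord {M : Matrix (Fin (n + 1)) (Fin (n + 1)) ℝ} {a : ℝ} {b : Fin n → ℝ}
    {C : Matrix (Fin n) (Fin n) ℝ} (h00 : M 0 0 = a) (h0 : ∀ j, M 0 (Fin.succ j) = b j)
    (h1 : ∀ i, M (Fin.succ i) 0 = b i) (h2 : ∀ i j, M (Fin.succ i) (Fin.succ j) = C i j) :
    M = bord a b C := by
  ext i j
  refine Fin.cases ?_ (fun i => ?_) i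
  · refine Fin.cases ?_ (fun j => ?_) j
    · exact h00
    · exact h0 j
  · refine Fin.cases ?_ (fun j => ?_) j
    · exact h1 i
    · exact h2 i j

theorem good_move_of (hR4 : RegressSt n) (hC6 : CovShiftSt n)
    {K : Set (Fin (n + 1) → ℝ)} {v : (Fin n → ℝ) → ℝ} {r : ℝ} (hr : 0 < r)
    (hK : IsConvexBody K) (h1 : Good (shift v '' K))
    (h2 : Good (shift (fun y => -(r * v y)) '' K)) : Good K := by
  have hV : 0 < (volume K).toReal := by
    have hV0 : 0 < volume K :=
      (isOpen_interior.measure_pos volume hK.2.2).trans_le (measure_mono interior_subset)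
    exact ENNReal.toReal_pos hV0.ne' hK.2.1.measure_lt_top.ne
  obtain ⟨q, hq, hqb, hqv⟩ := H520.shift_meas (v := v) hK.2.1 h1.body.2.1
  set m := (volume K).toReal⁻¹ * ∫ x in K, q (Fin.tail x) with hm
  set g := (volume K).toReal⁻¹ * ∫ x in K, (q (Fin.tail x) - m) ^ 2 with hg
  set e := (volume K).toReal⁻¹ * ∫ x in K, (q (Fin.tail x) - m) * (x 0 - centroid K 0) with he
  set β : Fin n → ℝ := fun i => (volume K).toReal⁻¹ *
    ∫ x in K, (q (Fin.tail x) - m) * (x (Fin.succ i) - centroid K (Fin.succ i)) with hβ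
  set a := covMatrix K 0 0 with ha
  set b : Fin n → ℝ := fun i => covMatrix K 0 i.succ with hb
  set C : Matrix (Fin n) (Fin n) ℝ := fun i j => covMatrix K i.succ j.succ with hC
  have hCp : C.PosDef := (Fib.H863.cov_posDef hK).submatrix (Fin.succ_injective n)
  have e1 : (fun y => (1 : ℝ) * v y) = v := by funext y; ring
  have e2 : (fun y => (-r) * v y) = fun y => -(r * v y) := by funext y; ring
  have hK1 : IsCompact (shift (fun y => (1 : ℝ) * v y) '' K) := by rw [e1]; exact h1.body.2.1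
  have hK2 : IsCompact (shift (fun y => (-r) * v y) '' K) := by rw [e2]; exact h2.body.2.1
  obtain ⟨v1, c1, c1', c1''⟩ := hC6 hK (v := v) hK1 hq hqb hqv m hm
  obtain ⟨v2, c2, c2', c2''⟩ := hC6 hK (v := v) hK2 hq hqb hqv m hm
  rw [e1] at v1 c1 c1' c1''
  rw [e2] at v2 c2 c2' c2''
  obtain ⟨hle, heq⟩ := hR4 hK hq hqb C (fun _ _ => rfl) hCp m g β hm hg (fun _ => rfl)
  -- the three matrices
  let M : ℝ → Matrix (Fin (n + 1)) (Fin (n + 1)) ℝ := fun t =>
    bord (a + 2 * t * e + t ^ 2 * g) (fun i => b i + t * β i) C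
  have hM0 : covMatrix K = M 0 := by
    refine eq_bord ?_ (fun j => ?_) (fun i => ?_) (fun _ _ => rfl)
    · simp [ha]
    · simp [hb]
    · rw [cov_symm]; simp [hb]
  have hM1 : covMatrix (shift v '' K) = M 1 := by
    refine eq_bord c1'' (fun j => c1' j) (fun i => ?_) (fun i j => c1 i j)
    rw [cov_symm]; exact c1' i
  have hM2 : covMatrix (shift (fun y => -(r * v y)) '' K) = M (-r) := by
    refine eq_bord c2'' (fun j => c2' j) (fun i => ?_) (fun i j => c2 i j)
    rw [cov_symm]; exact c2' i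
  have key := H408.det_bord C hCp a e g b β M (fun _ => rfl) (fun _ _ => rfl) (fun _ _ => rfl)
    (fun _ _ _ => rfl) r
  have hS := simpC_pos (n + 1)
  have hd1 : (M 1).det ≤ simpC (n + 1) * (volume K).toReal ^ 2 := by
    have h := h1.le
    unfold Dn at h
    rw [hM1, v1, div_le_iff₀ (by positivity)] at h
    exact h
  have hd2 : (M (-r)).det ≤ simpC (n + 1) * (volume K).toReal ^ 2 := by
    have h := h2.le
    unfold Dn at h
    rw [hM2, v2, div_le_iff₀ (by positivity)] at h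
    exact h
  have hCd : 0 < C.det := hCp.det_pos
  have hx : 0 ≤ C.det * (g - β ⬝ᵥ (C⁻¹ *ᵥ β)) := mul_nonneg hCd.le (sub_nonneg.2 hle)
  have hrr : 0 < r * (1 + r) := by positivity
  have hx' := mul_nonneg hrr.le hx
  refine ⟨h1.one_le, hK, ?_, fun h0 => ?_⟩
  · unfold Dn
    rw [hM0, div_le_iff₀ (by positivity)]
    have h3 : (1 + r) * (M 0).det ≤ (1 + r) * (simpC (n + 1) * (volume K).toReal ^ 2) := by
      nlinarith
    exact le_of_mul_le_mul_left h3 (by positivity)
  · unfold Dn at h0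
    rw [hM0, div_eq_iff (by positivity)] at h0
    have h4 : r * (1 + r) * (C.det * (g - β ⬝ᵥ (C⁻¹ *ᵥ β))) ≤ 0 := by
      rw [h0] at key
      nlinarith
    have h5 : C.det * (g - β ⬝ᵥ (C⁻¹ *ᵥ β)) = 0 := by
      refine le_antisymm ?_ hx
      by_contra hcon
      push Not at hcon
      have := mul_pos hrr hcon
      linarith
    have h6 : g = β ⬝ᵥ (C⁻¹ *ᵥ β) := by
      rcases mul_eq_zero.1 h5 with h | h
      · exact absurd h hCd.ne'
      · linarith
    have h7 : (M 1).det = simpC (n + 1) * (volume K).toReal ^ 2 := by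
      refine le_antisymm hd1 ?_
      rw [h0, h5, mul_zero, add_zero] at key
      have h8 : r * (simpC (n + 1) * (volume K).toReal ^ 2) ≤ r * (M 1).det := by
        nlinarith
      exact le_of_mul_le_mul_left h8 hr
    have hs : IsSimplex (shift v '' K) := by
      refine h1.eq ?_
      unfold Dn
      rw [hM1, v1, h7, mul_div_assoc, div_self (by positivity), mul_one]
    obtain ⟨a', c', hac⟩ := heq h6
    refine simplex_of_affine hK h1.body.2.1 hs a' c' ?_
    filter_upwards [hac, hqv] with x hx1 hx2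
    rw [hx2, hx1]

end Vale.Agent.P254.Mov.H393
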