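import Vale.Agent.P254.Mov.Simp
import Vale.Agent.P254.FV.Good
import Vale.Agent.P254.Fib.Transfer863

/-!
P254: closure of the class under movements along chords.
-/

open MeasureTheory Set Matrix

namespace Vale.Agent.P254.Mov

open Vale.Agent.P254.FV (Good)

namespace H598

variable {n : ℕ}

/-- the bordered matrix -/
noncomputable def bm (C : Matrix (Fin n) (Fin n) ℝ) (a e g : ℝ) (b β : Fin n → ℝ) (t : ℝ) :
    Matrix (Fin (n + 1)) (Fin (n + 1)) ℝ := fun i j =>
  Fin.cases (motive := fun _ => ℝ)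
    (Fin.cases (motive := fun _ => ℝ) (a + 2 * t * e + t ^ 2 * g) (fun j => b j + t * β j) j)
    (fun i => Fin.cases (motive := fun _ => ℝ) (b i + t * β i) (fun j => C i j) j) i

theorem eq_bm {M : Matrix (Fin (n + 1)) (Fin (n + 1)) ℝ} {C : Matrix (Fin n) (Fin n) ℝ}
    {a e g : ℝ} {b β : Fin n → ℝ} {t : ℝ} (h00 : M 0 0 = a + 2 * t * e + t ^ 2 * g)
    (h0 : ∀ i : Fin n, M 0 i.succ = b i + t * β i) (h1 : ∀ i : Fin n, M i.succ 0 = b i + t * β i)
    (h2 : ∀ i j : Fin n, M i.succ j.succ = C i j) : M = bm C a e g b β t := by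
  ext i j
  refine Fin.cases ?_ (fun i => ?_) i
  · refine Fin.cases ?_ (fun j => ?_) j
    · exact h00
    · exact h0 j
  · refine Fin.cases ?_ (fun j => ?_) j
    · exact h1 i
    · exact h2 i j

theorem good_move_of
    (shift_meas : ∀ {K : Set (Fin (n + 1) → ℝ)} {v : (Fin n → ℝ) → ℝ}, IsCompact K →
      IsCompact (shift v '' K) →
      ∃ q : (Fin n → ℝ) → ℝ, Measurable q ∧ (∃ R, ∀ y, |q y| ≤ R) ∧
        ∀ᵐ x ∂(volume.restrict K), v (Fin.tail x) = q (Fin.tail x))
    (det_bord : ∀ (C : Matrix (Fin n) (Fin n) ℝ), C.PosDef → ∀ (a e g : ℝ) (b β : Fin n → ℝ)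
      (M : ℝ → Matrix (Fin (n + 1)) (Fin (n + 1)) ℝ),
      (∀ t, M t 0 0 = a + 2 * t * e + t ^ 2 * g) →
      (∀ t i, M t 0 (Fin.succ i) = b i + t * β i) →
      (∀ t i, M t (Fin.succ i) 0 = b i + t * β i) →
      (∀ t i j, M t (Fin.succ i) (Fin.succ j) = C i j) → ∀ r : ℝ,
      (1 + r) * (M 0).det + r * (1 + r) * (C.det * (g - β ⬝ᵥ (C⁻¹ *ᵥ β))) =
        r * (M 1).det + (M (-r)).det)
    (regress : ∀ {K : Set (Fin (n + 1) → ℝ)}, IsConvexBody K → ∀ {q : (Fin n → ℝ) → ℝ},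
      Measurable q → (∃ R, ∀ y, |q y| ≤ R) → ∀ (C : Matrix (Fin n) (Fin n) ℝ),
      (∀ i j, C i j = covMatrix K (Fin.succ i) (Fin.succ j)) → C.PosDef →
      ∀ (m g : ℝ) (β : Fin n → ℝ), m = (volume K).toReal⁻¹ * ∫ x in K, q (Fin.tail x) →
      g = (volume K).toReal⁻¹ * ∫ x in K, (q (Fin.tail x) - m) ^ 2 →
      (∀ i, β i = (volume K).toReal⁻¹ *
        ∫ x in K, (q (Fin.tail x) - m) * (x (Fin.succ i) - centroid K (Fin.succ i))) →
      β ⬝ᵥ (C⁻¹ *ᵥ β) ≤ g ∧ (g = β ⬝ᵥ (C⁻¹ *ᵥ β) →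
        ∃ (a : Fin n → ℝ) (c : ℝ), ∀ᵐ x ∂(volume.restrict K),
          q (Fin.tail x) = a ⬝ᵥ Fin.tail x + c))
    (cov_shift : ∀ {K : Set (Fin (n + 1) → ℝ)}, IsConvexBody K → ∀ {v q : (Fin n → ℝ) → ℝ}
      {t : ℝ}, IsCompact (shift (fun y => t * v y) '' K) → Measurable q →
      (∃ R, ∀ y, |q y| ≤ R) →
      (∀ᵐ x ∂(volume.restrict K), v (Fin.tail x) = q (Fin.tail x)) → ∀ (m : ℝ),
      m = (volume K).toReal⁻¹ * ∫ x in K, q (Fin.tail x) →
      volume (shift (fun y => t * v y) '' K) = volume K ∧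
      (∀ i j : Fin n, covMatrix (shift (fun y => t * v y) '' K) i.succ j.succ =
        covMatrix K i.succ j.succ) ∧
      (∀ i : Fin n, covMatrix (shift (fun y => t * v y) '' K) 0 i.succ =
        covMatrix K 0 i.succ + t * ((volume K).toReal⁻¹ *
          ∫ x in K, (q (Fin.tail x) - m) * (x i.succ - centroid K i.succ))) ∧
      covMatrix (shift (fun y => t * v y) '' K) 0 0 =
        covMatrix K 0 0 + 2 * t * ((volume K).toReal⁻¹ *
          ∫ x in K, (q (Fin.tail x) - m) * (x 0 - centroid K 0)) +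
        t ^ 2 * ((volume K).toReal⁻¹ * ∫ x in K, (q (Fin.tail x) - m) ^ 2))
    {K : Set (Fin (n + 1) → ℝ)} {v : (Fin n → ℝ) → ℝ} {r : ℝ} (hr : 0 < r)
    (hK : IsConvexBody K) (h1 : Good (shift v '' K))
    (h2 : Good (shift (fun y => -(r * v y)) '' K)) : Good K := by
  have hV := FV.vol_pos hK
  obtain ⟨q, hq, hR, hvq⟩ := shift_meas hK.2.1 h1.body.2.1
  set m := (volume K).toReal⁻¹ * ∫ x in K, q (Fin.tail x) with hm
  set g := (volume K).toReal⁻¹ * ∫ x in K, (q (Fin.tail x) - m) ^ 2 with hg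
  set e := (volume K).toReal⁻¹ * ∫ x in K, (q (Fin.tail x) - m) * (x 0 - centroid K 0) with he
  set β : Fin n → ℝ := fun i => (volume K).toReal⁻¹ *
    ∫ x in K, (q (Fin.tail x) - m) * (x i.succ - centroid K i.succ) with hβ
  set C : Matrix (Fin n) (Fin n) ℝ := fun i j => covMatrix K i.succ j.succ with hC
  have hCp : C.PosDef := by
    have h := (Fib.H863.cov_posDef hK).submatrix (Fin.succ_injective n)
    exact h
  -- the three matrices
  have hMt : ∀ t : ℝ, IsCompact (shift (fun y => t * v y) '' K) →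
      covMatrix (shift (fun y => t * v y) '' K) =
        bm C (covMatrix K 0 0) e g (fun i => covMatrix K 0 i.succ) β t ∧
      volume (shift (fun y => t * v y) '' K) = volume K := by
    intro t ht
    obtain ⟨c1, c2, c3, c4⟩ := cov_shift hK ht hq hR hvq m hm
    refine ⟨eq_bm c4 c3 (fun i => ?_) c2, c1⟩
    rw [covMatrix_symm]
    exact c3 i
  have e1 : (fun y => (1 : ℝ) * v y) = v := by ext y; ring
  have er : (fun y => (-r) * v y) = fun y => -(r * v y) := by ext y; ring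
  obtain ⟨m1, v1⟩ := hMt 1 (by rw [e1]; exact h1.body.2.1)
  obtain ⟨mr, vr⟩ := hMt (-r) (by rw [er]; exact h2.body.2.1)
  rw [e1] at m1 v1
  rw [er] at mr vr
  have m0 : covMatrix K = bm C (covMatrix K 0 0) e g (fun i => covMatrix K 0 i.succ) β 0 := by
    apply eq_bm
    · ring
    · intro i; ring
    · intro i; rw [covMatrix_symm]; ring
    · intro i j; rfl
  have hdet := det_bord C hCp (covMatrix K 0 0) e g (fun i => covMatrix K 0 i.succ) β
    (bm C (covMatrix K 0 0) e g (fun i => covMatrix K 0 i.succ) β) (fun t => rfl)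
    (fun t i => rfl) (fun t i => rfl) (fun t i j => rfl) r
  rw [← m0, ← m1, ← mr] at hdet
  obtain ⟨hreg, hregeq⟩ := regress hK hq hR C (fun i j => rfl) hCp m g β hm hg (fun i => rfl)
  have hCd : 0 < C.det := hCp.det_pos
  have hV2 : 0 < (volume K).toReal ^ 2 := by positivity
  have d1 : (covMatrix (shift v '' K)).det ≤ FV.simpC (n + 1) * (volume K).toReal ^ 2 := by
    have h := h1.le
    unfold FV.Dn at h
    rw [v1, div_le_iff₀ hV2] at h
    exact h
  have dr : (covMatrix (shift (fun y => -(r * v y)) '' K)).det ≤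
      FV.simpC (n + 1) * (volume K).toReal ^ 2 := by
    have h := h2.le
    unfold FV.Dn at h
    rw [vr, div_le_iff₀ hV2] at h
    exact h
  have hpos : 0 ≤ r * (1 + r) * (C.det * (g - β ⬝ᵥ (C⁻¹ *ᵥ β))) :=
    mul_nonneg (by positivity) (mul_nonneg hCd.le (sub_nonneg.2 hreg))
  have d0 : (covMatrix K).det ≤ FV.simpC (n + 1) * (volume K).toReal ^ 2 := by
    have h3 : (1 + r) * (covMatrix K).det ≤
        (1 + r) * (FV.simpC (n + 1) * (volume K).toReal ^ 2) := by
      have h4 := mul_le_mul_of_nonneg_left d1 hr.le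
      linarith
    exact le_of_mul_le_mul_left h3 (by positivity)
  refine ⟨by omega, hK, ?_, fun h => ?_⟩
  · unfold FV.Dn
    rw [div_le_iff₀ hV2]
    exact d0
  · unfold FV.Dn at h
    rw [div_eq_iff hV2.ne'] at h
    have h4 := mul_le_mul_of_nonneg_left d1 hr.le
    -- the moved body is a simplex
    have hd1 : (covMatrix (shift v '' K)).det = FV.simpC (n + 1) * (volume K).toReal ^ 2 := by
      refine le_antisymm d1 ?_
      refine le_of_mul_le_mul_left (a := r) ?_ hr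
      rw [h] at hdet
      linarith
    have hs : IsSimplex (shift v '' K) := by
      apply h1.eq
      unfold FV.Dn
      rw [v1, hd1, mul_div_cancel_right₀ _ hV2.ne']
    have hg' : g = β ⬝ᵥ (C⁻¹ *ᵥ β) := by
      have h5 : r * (1 + r) * (C.det * (g - β ⬝ᵥ (C⁻¹ *ᵥ β))) ≤ 0 := by
        rw [h] at hdet
        linarith
      have h6 : r * (1 + r) * (C.det * (g - β ⬝ᵥ (C⁻¹ *ᵥ β))) = 0 := le_antisymm h5 hpos
      have h7 : r * (1 + r) ≠ 0 := by positivity
      rcases mul_eq_zero.1 h6 with h8 | h8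
      · exact absurd h8 h7
      · rcases mul_eq_zero.1 h8 with h9 | h9
        · exact absurd h9 hCd.ne'
        · linarith
    obtain ⟨a, c, hac⟩ := hregeq hg'
    apply simplex_of_affine hK h1.body.2.1 hs a c
    filter_upwards [hvq, hac] with x hx1 hx2
    rw [hx1, hx2]

end H598

end Vale.Agent.P254.Mov
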