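import Vale.Agent.P254.Mov.Defs
import Vale.Agent.P254.FV.Good

/-!
P254/Mov: closure under movements, from the leaves V2-V6.
-/

open MeasureTheory Set Matrix

namespace Vale.Agent.P254.Mov.H678

open Vale.Agent.P254.FV (Good Dn simpC simpC_pos)

variable {n : ℕ}

/-- the bordered matrix -/
def bord (a e g : ℝ) (b β : Fin n → ℝ) (C : Matrix (Fin n) (Fin n) ℝ) (t : ℝ) :
    Matrix (Fin (n + 1)) (Fin (n + 1)) ℝ :=
  fun i j => Fin.cases (Fin.cases (a + 2 * t * e + t ^ 2 * g) (fun j => b j + t * β j) j)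
    (fun i => Fin.cases (b i + t * β i) (fun j => C i j) j) i

theorem eq_bord {a e g : ℝ} {b β : Fin n → ℝ} {C : Matrix (Fin n) (Fin n) ℝ} {t : ℝ}
    {M : Matrix (Fin (n + 1)) (Fin (n + 1)) ℝ} (hM : ∀ i j, M i j = M j i)
    (h0 : M 0 0 = a + 2 * t * e + t ^ 2 * g) (h1 : ∀ i, M 0 (Fin.succ i) = b i + t * β i)
    (h2 : ∀ i j, M (Fin.succ i) (Fin.succ j) = C i j) : M = bord a e g b β C t := by
  ext i j
  refine Fin.cases ?_ (fun i => ?_) i
  · refine Fin.cases ?_ (fun j => ?_) j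
    · exact h0
    · exact h1 j
  · refine Fin.cases ?_ (fun j => ?_) j
    · rw [hM]
      exact h1 i
    · exact h2 i j

theorem good_move_of
    (V2 : ∀ {K : Set (Fin (n + 1) → ℝ)} {v : (Fin n → ℝ) → ℝ}, IsCompact K →
      IsCompact (shift v '' K) →
      ∃ q : (Fin n → ℝ) → ℝ, Measurable q ∧ (∃ R, ∀ y, |q y| ≤ R) ∧
        ∀ᵐ x ∂(volume.restrict K), v (Fin.tail x) = q (Fin.tail x))
    (V3 : ∀ (C : Matrix (Fin n) (Fin n) ℝ), C.PosDef → ∀ (a e g : ℝ) (b β : Fin n → ℝ)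
      (M : ℝ → Matrix (Fin (n + 1)) (Fin (n + 1)) ℝ),
      (∀ t, M t 0 0 = a + 2 * t * e + t ^ 2 * g) →
      (∀ t i, M t 0 (Fin.succ i) = b i + t * β i) →
      (∀ t i, M t (Fin.succ i) 0 = b i + t * β i) →
      (∀ t i j, M t (Fin.succ i) (Fin.succ j) = C i j) → ∀ r : ℝ,
      (1 + r) * (M 0).det + r * (1 + r) * (C.det * (g - β ⬝ᵥ (C⁻¹ *ᵥ β))) =
        r * (M 1).det + (M (-r)).det)
    (V4 : ∀ {K : Set (Fin (n + 1) → ℝ)}, IsConvexBody K → ∀ {q : (Fin n → ℝ) → ℝ},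
      Measurable q → (∃ R, ∀ y, |q y| ≤ R) → ∀ (C : Matrix (Fin n) (Fin n) ℝ),
      (∀ i j, C i j = covMatrix K (Fin.succ i) (Fin.succ j)) → C.PosDef →
      ∀ (m g : ℝ) (β : Fin n → ℝ), m = (volume K).toReal⁻¹ * ∫ x in K, q (Fin.tail x) →
      g = (volume K).toReal⁻¹ * ∫ x in K, (q (Fin.tail x) - m) ^ 2 →
      (∀ i, β i = (volume K).toReal⁻¹ *
        ∫ x in K, (q (Fin.tail x) - m) * (x (Fin.succ i) - centroid K (Fin.succ i))) →
      β ⬝ᵥ (C⁻¹ *ᵥ β) ≤ g ∧ (g = β ⬝ᵥ (C⁻¹ *ᵥ β) →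
        ∃ (a : Fin n → ℝ) (c : ℝ), ∀ᵐ x ∂(volume.restrict K),
          q (Fin.tail x) = a ⬝ᵥ Fin.tail x + c))
    (V5 : ∀ {K : Set (Fin (n + 1) → ℝ)} {v : (Fin n → ℝ) → ℝ}, IsConvexBody K →
      IsCompact (shift v '' K) → IsSimplex (shift v '' K) → ∀ (a : Fin n → ℝ) (c : ℝ),
      (∀ᵐ x ∂(volume.restrict K), v (Fin.tail x) = a ⬝ᵥ Fin.tail x + c) → IsSimplex K)
    (V6 : ∀ {K : Set (Fin (n + 1) → ℝ)}, IsConvexBody K → ∀ {v q : (Fin n → ℝ) → ℝ}
      {t : ℝ}, IsCompact (shift (fun y => t * v y) '' K) → Measurable q →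
      (∃ R, ∀ y, |q y| ≤ R) →
      (∀ᵐ x ∂(volume.restrict K), v (Fin.tail x) = q (Fin.tail x)) → ∀ (m : ℝ),
      m = (volume K).toReal⁻¹ * ∫ x in K, q (Fin.tail x) →
      volume (shift (fun y => t * v y) '' K) = volume K ∧
      (∀ i j : Fin n, covMatrix (shift (fun y => t * v y) '' K) i.succ j.succ =
        covMatrix K i.succ j.succ) ∧
      (∀ i : Fin n, covMatrix (shift (fun y => t * v y) '' K) 0 i.succ =
        covMatrix K 0 i.succ + t * ((volume K).toReal⁻¹ *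
          ∫ x in K, (q (Fin.tail x) - m) * (x i.succ - centroid K i.succ))) ∧
      covMatrix (shift (fun y => t * v y) '' K) 0 0 =
        covMatrix K 0 0 + 2 * t * ((volume K).toReal⁻¹ *
          ∫ x in K, (q (Fin.tail x) - m) * (x 0 - centroid K 0)) +
        t ^ 2 * ((volume K).toReal⁻¹ * ∫ x in K, (q (Fin.tail x) - m) ^ 2))
    {K : Set (Fin (n + 1) → ℝ)} {v : (Fin n → ℝ) → ℝ} {r : ℝ} (hr : 0 < r)
    (hK : IsConvexBody K) (h1 : Good (shift v '' K))
    (h2 : Good (shift (fun y => -(r * v y)) '' K)) : Good K := by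
  obtain ⟨q, hq, hR, hv⟩ := V2 hK.2.1 h1.body.2.1
  set m : ℝ := (volume K).toReal⁻¹ * ∫ x in K, q (Fin.tail x) with hm
  set a : ℝ := covMatrix K 0 0 with ha
  set e : ℝ := (volume K).toReal⁻¹ *
    ∫ x in K, (q (Fin.tail x) - m) * (x 0 - centroid K 0) with he
  set g : ℝ := (volume K).toReal⁻¹ * ∫ x in K, (q (Fin.tail x) - m) ^ 2 with hg
  set b : Fin n → ℝ := fun i => covMatrix K 0 i.succ with hb
  set β : Fin n → ℝ := fun i => (volume K).toReal⁻¹ *
    ∫ x in K, (q (Fin.tail x) - m) * (x i.succ - centroid K i.succ) with hβ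
  set C : Matrix (Fin n) (Fin n) ℝ := fun i j => covMatrix K i.succ j.succ with hC
  have hP := covMatrix_posDef hK
  have hCP : C.PosDef := hP.submatrix (e := Fin.succ) (Fin.succ_injective n)
  have hV : 0 < (volume K).toReal := FV.vol_pos hK
  -- the three covariance matrices
  have e1 : shift (fun y => 1 * v y) '' K = shift v '' K := by simp
  have e2 : shift (fun y => (-r) * v y) '' K = shift (fun y => -(r * v y)) '' K := by
    simp only [neg_mul]
  have c1 := V6 hK (v := v) (q := q) (t := 1) (by rw [e1]; exact h1.body.2.1) hq hR hv m hm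
  have c2 := V6 hK (v := v) (q := q) (t := -r) (by rw [e2]; exact h2.body.2.1) hq hR hv m hm
  rw [e1] at c1
  rw [e2] at c2
  have m0 : covMatrix K = bord a e g b β C 0 :=
    eq_bord (covMatrix_symm K) (by rw [ha]; ring) (fun i => by rw [hb]; ring) fun i j => rfl
  have m1 : covMatrix (shift v '' K) = bord a e g b β C 1 :=
    eq_bord (covMatrix_symm _) c1.2.2.2 (fun i => c1.2.2.1 i) fun i j => c1.2.1 i j
  have m2 : covMatrix (shift (fun y => -(r * v y)) '' K) = bord a e g b β C (-r) :=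
    eq_bord (covMatrix_symm _) c2.2.2.2 (fun i => c2.2.2.1 i) fun i j => c2.2.1 i j
  have key := V3 C hCP a e g b β (bord a e g b β C) (fun t => rfl) (fun t i => rfl)
    (fun t i => rfl) (fun t i j => rfl) r
  rw [← m0, ← m1, ← m2] at key
  obtain ⟨hle, heq⟩ := V4 hK hq hR C (fun i j => rfl) hCP m g β hm hg (fun i => rfl)
  have hD : ∀ {K' : Set (Fin (n + 1) → ℝ)}, volume K' = volume K →
      (covMatrix K').det = Dn K' * (volume K).toReal ^ 2 := by
    intro K' h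
    unfold Dn
    rw [h]
    field_simp
  rw [hD rfl, hD c1.1, hD c2.1] at key
  have hCd := hCP.det_pos
  have hV2 : 0 < (volume K).toReal ^ 2 := by positivity
  have hgap : 0 ≤ C.det * (g - β ⬝ᵥ (C⁻¹ *ᵥ β)) := mul_nonneg hCd.le (by linarith)
  have hb1 : Dn (shift v '' K) * (volume K).toReal ^ 2 ≤
      simpC (n + 1) * (volume K).toReal ^ 2 := mul_le_mul_of_nonneg_right h1.le hV2.le
  have hb2 : Dn (shift (fun y => -(r * v y)) '' K) * (volume K).toReal ^ 2 ≤
      simpC (n + 1) * (volume K).toReal ^ 2 := mul_le_mul_of_nonneg_right h2.le hV2.le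
  have hr1 : 0 < 1 + r := by linarith
  have hgap2 : 0 ≤ r * (1 + r) * (C.det * (g - β ⬝ᵥ (C⁻¹ *ᵥ β))) := by positivity
  have hb1r := mul_le_mul_of_nonneg_left hb1 hr.le
  refine ⟨by omega, hK, ?_, fun h => ?_⟩
  · have h3 : (1 + r) * (Dn K * (volume K).toReal ^ 2) ≤
        (1 + r) * (simpC (n + 1) * (volume K).toReal ^ 2) := by nlinarith
    exact le_of_mul_le_mul_right (le_of_mul_le_mul_left h3 hr1) hV2
  · rw [h] at key
    have h4 : r * (1 + r) * (C.det * (g - β ⬝ᵥ (C⁻¹ *ᵥ β))) = 0 := by nlinarith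
    have h5 : g - β ⬝ᵥ (C⁻¹ *ᵥ β) = 0 := by
      have h6 : r * (1 + r) ≠ 0 := by positivity
      rcases mul_eq_zero.1 ((mul_eq_zero.1 h4).resolve_left h6) with h7 | h7
      · exact absurd h7 hCd.ne'
      · exact h7
    have h6 : simpC (n + 1) * (volume K).toReal ^ 2 ≤
        Dn (shift v '' K) * (volume K).toReal ^ 2 := by
      rw [h4] at key
      have h8 : r * (simpC (n + 1) * (volume K).toReal ^ 2) ≤
          r * (Dn (shift v '' K) * (volume K).toReal ^ 2) := by linarith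
      exact le_of_mul_le_mul_left h8 hr
    have h7 : Dn (shift v '' K) = simpC (n + 1) :=
      le_antisymm h1.le (le_of_mul_le_mul_right h6 hV2)
    obtain ⟨a', c', h8⟩ := heq (by linarith)
    refine V5 hK h1.body.2.1 (h1.eq h7) a' c' ?_
    filter_upwards [hv, h8] with x hx1 hx2
    rw [hx1, hx2]

end Vale.Agent.P254.Mov.H678
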