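import Vale.Agent.P254.Mov.Defs

/-!
P254, Mov, [V4]: linear regression of a bounded function on the coordinates (helper808).
-/

open MeasureTheory Set Matrix

namespace Vale.Agent.P254.Mov.H808

variable {n : ℕ}

/-- [V4] linear regression of `q` on the coordinates -/
theorem regress {K : Set (Fin (n + 1) → ℝ)} (hK : IsConvexBody K) {q : (Fin n → ℝ) → ℝ}
    (hq : Measurable q) (hR : ∃ R, ∀ y, |q y| ≤ R) (C : Matrix (Fin n) (Fin n) ℝ)
    (hC : ∀ i j, C i j = covMatrix K (Fin.succ i) (Fin.succ j)) (hC' : C.PosDef)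
    (m g : ℝ) (β : Fin n → ℝ) (hm : m = (volume K).toReal⁻¹ * ∫ x in K, q (Fin.tail x))
    (hg : g = (volume K).toReal⁻¹ * ∫ x in K, (q (Fin.tail x) - m) ^ 2)
    (hβ : ∀ i, β i = (volume K).toReal⁻¹ *
      ∫ x in K, (q (Fin.tail x) - m) * (x (Fin.succ i) - centroid K (Fin.succ i))) :
    β ⬝ᵥ (C⁻¹ *ᵥ β) ≤ g ∧ (g = β ⬝ᵥ (C⁻¹ *ᵥ β) →
      ∃ (a : Fin n → ℝ) (c : ℝ), ∀ᵐ x ∂(volume.restrict K),
        q (Fin.tail x) = a ⬝ᵥ Fin.tail x + c) := by
  classical
  obtain ⟨R, hR⟩ := hR
  have hKc : IsCompact K := hK.2.1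
  have hKt : volume K ≠ ⊤ := hKc.measure_lt_top.ne
  have hK0 : 0 < (volume K).toReal := by
    apply ENNReal.toReal_pos _ hKt
    exact ((isOpen_interior.measure_pos volume hK.2.2).trans_le
      (measure_mono interior_subset)).ne'
  have hdet : IsUnit C.det := (Matrix.isUnit_iff_isUnit_det _).1 hC'.isUnit
  obtain ⟨u, hu⟩ : ∃ u : Fin n → ℝ, u = C⁻¹ *ᵥ β := ⟨_, rfl⟩
  have hCu : C *ᵥ u = β := by
    rw [hu, mulVec_mulVec, Matrix.mul_nonsing_inv _ hdet, one_mulVec]
  rw [← hu]
  obtain ⟨p, hp⟩ : ∃ p : (Fin (n + 1) → ℝ) → ℝ, p = fun x => q (Fin.tail x) - m := ⟨_, rfl⟩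
  obtain ⟨l, hl⟩ : ∃ l : Fin n → (Fin (n + 1) → ℝ) → ℝ,
    l = fun i x => x i.succ - centroid K i.succ := ⟨_, rfl⟩
  have htail : Measurable (fun x : Fin (n + 1) → ℝ => Fin.tail x) :=
    measurable_pi_lambda _ fun i => measurable_pi_apply i.succ
  have hpm : Measurable p := by rw [hp]; exact (hq.comp htail).sub_const m
  have hpb : ∀ x, ‖p x‖ ≤ R + |m| := by
    intro x
    rw [hp, Real.norm_eq_abs]
    exact (abs_sub _ _).trans (add_le_add (hR _) le_rfl)
  have hlc : ∀ i, Continuous (l i) := by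
    intro i
    rw [hl]
    exact (continuous_apply i.succ).sub continuous_const
  have hli : ∀ i, IntegrableOn (l i) K := fun i => (hlc i).continuousOn.integrableOn_compact hKc
  have ill : ∀ i j, IntegrableOn (fun x => l i x * l j x) K := fun i j =>
    ((hlc i).mul (hlc j)).continuousOn.integrableOn_compact hKc
  have ip : IntegrableOn p K :=
    Measure.integrableOn_of_bounded hKt hpm.aestronglyMeasurable (Filter.Eventually.of_forall hpb)
  have ip2 : IntegrableOn (fun x => p x * p x) K :=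
    ip.bdd_mul hpm.aestronglyMeasurable (Filter.Eventually.of_forall hpb)
  have ipl : ∀ i, IntegrableOn (fun x => p x * l i x) K := fun i =>
    (hli i).bdd_mul hpm.aestronglyMeasurable (Filter.Eventually.of_forall hpb)
  obtain ⟨h, hh⟩ : ∃ h : (Fin (n + 1) → ℝ) → ℝ, h = fun x => p x - ∑ i, u i * l i x := ⟨_, rfl⟩
  have e1 : ∀ x, h x ^ 2 = (p x * p x - ∑ i, 2 * u i * (p x * l i x)) +
      ∑ i, ∑ j, u i * u j * (l i x * l j x) := by
    intro x
    have a1 : (∑ i, 2 * u i * (p x * l i x)) = 2 * p x * ∑ i, u i * l i x := by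
      rw [Finset.mul_sum]
      exact Finset.sum_congr rfl fun i _ => by ring
    have a2 : (∑ i, ∑ j, u i * u j * (l i x * l j x)) =
        (∑ i, u i * l i x) * ∑ j, u j * l j x := by
      rw [Finset.sum_mul_sum]
      exact Finset.sum_congr rfl fun i _ => Finset.sum_congr rfl fun j _ => by ring
    rw [hh, a1, a2]
    ring
  have i1 : IntegrableOn (fun x => ∑ i, 2 * u i * (p x * l i x)) K :=
    integrable_finsetSum _ fun i _ => (ipl i).const_mul _
  have i2 : IntegrableOn (fun x => ∑ i, ∑ j, u i * u j * (l i x * l j x)) K :=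
    integrable_finsetSum _ fun i _ => integrable_finsetSum _ fun j _ => (ill i j).const_mul _
  have i3 : IntegrableOn (fun x => p x * p x - ∑ i, 2 * u i * (p x * l i x)) K := ip2.sub i1
  have ih : IntegrableOn (fun x => h x ^ 2) K := by
    simp only [e1]
    exact i3.add i2
  have e2 : ∫ x in K, h x ^ 2 = ((∫ x in K, p x * p x) - ∑ i, 2 * u i * ∫ x in K, p x * l i x) +
      ∑ i, ∑ j, u i * u j * ∫ x in K, l i x * l j x := by
    simp only [e1]
    rw [integral_add i3 i2, integral_sub ip2 i1,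
      integral_finsetSum _ fun i _ => (ipl i).const_mul _,
      integral_finsetSum _ fun i _ => integrable_finsetSum _ fun j _ => (ill i j).const_mul _]
    simp only [integral_const_mul]
    congr 1
    apply Finset.sum_congr rfl
    intro i _
    rw [integral_finsetSum _ fun j _ => (ill i j).const_mul _]
    simp only [integral_const_mul]
  have key : (volume K).toReal⁻¹ * ∫ x in K, h x ^ 2 = g - β ⬝ᵥ u := by
    have b1 : g = (volume K).toReal⁻¹ * ∫ x in K, p x * p x := by
      rw [hg, hp]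
      simp only [sq]
    have b2 : ∀ i, β i = (volume K).toReal⁻¹ * ∫ x in K, p x * l i x := by
      intro i
      rw [hβ i, hp, hl]
    have b3 : ∀ i j, C i j = (volume K).toReal⁻¹ * ∫ x in K, l i x * l j x := by
      intro i j
      rw [hC i j, hl]
      rfl
    have b4 : (∑ i, ∑ j, u i * u j * C i j) = β ⬝ᵥ u := by
      rw [← hCu, dotProduct]
      apply Finset.sum_congr rfl
      intro i _
      rw [mulVec, dotProduct, Finset.sum_mul]
      exact Finset.sum_congr rfl fun j _ => by ring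
    have b5 : (∑ i, 2 * u i * β i) = 2 * (β ⬝ᵥ u) := by
      rw [dotProduct, Finset.mul_sum]
      exact Finset.sum_congr rfl fun i _ => by ring
    rw [e2, mul_add, mul_sub, ← b1, Finset.mul_sum, Finset.mul_sum]
    have b6 : (∑ i, (volume K).toReal⁻¹ * (2 * u i * ∫ x in K, p x * l i x)) = 2 * (β ⬝ᵥ u) := by
      rw [← b5]
      exact Finset.sum_congr rfl fun i _ => by rw [b2 i]; ring
    have b7 : (∑ i, (volume K).toReal⁻¹ * ∑ j, u i * u j * ∫ x in K, l i x * l j x) = β ⬝ᵥ u := by
      rw [← b4]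
      apply Finset.sum_congr rfl
      intro i _
      rw [Finset.mul_sum]
      exact Finset.sum_congr rfl fun j _ => by rw [b3 i j]; ring
    rw [b6, b7]
    ring
  have hnn : 0 ≤ ∫ x in K, h x ^ 2 := integral_nonneg fun x => sq_nonneg _
  constructor
  · have := mul_nonneg (inv_nonneg.2 hK0.le) hnn
    linarith
  · intro hge
    rw [hge, sub_self] at key
    have h0 : ∫ x in K, h x ^ 2 = 0 :=
      (mul_eq_zero.1 key).resolve_left (inv_ne_zero hK0.ne')
    have h1 := (integral_eq_zero_iff_of_nonneg (fun x => sq_nonneg (h x)) ih).1 h0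
    refine ⟨u, m - ∑ i, u i * centroid K i.succ, ?_⟩
    filter_upwards [h1] with x hx
    have hx0 : h x = 0 := by
      have : h x ^ 2 = 0 := hx
      exact pow_eq_zero_iff (two_ne_zero) |>.1 this
    rw [hh, hp, hl] at hx0
    have hx1 : (∑ i, u i * (x i.succ - centroid K i.succ)) =
        (∑ i, u i * x i.succ) - ∑ i, u i * centroid K i.succ := by
      rw [← Finset.sum_sub_distrib]
      exact Finset.sum_congr rfl fun i _ => by ring
    have hx2 : u ⬝ᵥ Fin.tail x = ∑ i, u i * x i.succ := rfl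
    simp only at hx0
    rw [hx1] at hx0
    rw [hx2]
    linarith

end Vale.Agent.P254.Mov.H808
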