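import Vale.Agent.P254.Mov.Defs

/-!
P254/Mov V1 and V2: the chords are translated; Fubini.
-/

open MeasureTheory Set Matrix

namespace Vale.Agent.P254.Mov.H120

variable {n : ℕ}

/-- the fibre over `y` -/
def fb (S : Set (Fin (n + 1) → ℝ)) (y : Fin n → ℝ) : Set ℝ := {s | (Fin.cons s y : Fin (n + 1) → ℝ) ∈ S}

lemma cons_tail (x : Fin (n + 1) → ℝ) : (Fin.cons (x 0) (Fin.tail x) : Fin (n + 1) → ℝ) = x :=
  Fin.cons_self_tail x

/-- the coordinates -/
noncomputable def eq0 (n : ℕ) : ℝ × (Fin n → ℝ) ≃ᵐ (Fin (n + 1) → ℝ) :=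
  (MeasurableEquiv.piFinSuccAbove (fun _ : Fin (n + 1) => ℝ) 0).symm

lemma eq0_apply (p : ℝ × (Fin n → ℝ)) : eq0 n p = Fin.cons p.1 p.2 := by
  show (Fin.insertNth 0 p.1 p.2 : Fin (n + 1) → ℝ) = _
  rw [Fin.insertNth_zero']

lemma eq0_mp : MeasurePreserving (eq0 n) volume volume :=
  (volume_preserving_piFinSuccAbove (fun _ : Fin (n + 1) => ℝ) 0).symm _

lemma pre_meas {S : Set (Fin (n + 1) → ℝ)} (hS : MeasurableSet S) :
    MeasurableSet ((eq0 n) ⁻¹' S) := (eq0 n).measurable hS

lemma mem_pre {S : Set (Fin (n + 1) → ℝ)} (s : ℝ) (y : Fin n → ℝ) :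
    (s, y) ∈ (eq0 n) ⁻¹' S ↔ s ∈ fb S y := by
  show eq0 n (s, y) ∈ S ↔ _
  rw [eq0_apply]
  rfl

lemma fb_meas {S : Set (Fin (n + 1) → ℝ)} (hS : MeasurableSet S) (y : Fin n → ℝ) :
    MeasurableSet (fb S y) := by
  have h : fb S y = (fun s : ℝ => (s, y)) ⁻¹' ((eq0 n) ⁻¹' S) := by
    ext s
    exact (mem_pre s y).symm
  rw [h]
  exact (measurable_id.prodMk measurable_const) (pre_meas hS)

/-- Fubini -/
lemma fub {S : Set (Fin (n + 1) → ℝ)} (hS : MeasurableSet S) {F : (Fin (n + 1) → ℝ) → ℝ}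
    (hF : IntegrableOn F S) :
    ∫ x in S, F x = ∫ y, ∫ s in fb S y, F (Fin.cons s y) := by
  have h1 := eq0_mp.setIntegral_preimage_emb (eq0 n).measurableEmbedding F S
  have h2 : IntegrableOn (fun p => F (eq0 n p)) ((eq0 n) ⁻¹' S) :=
    (eq0_mp.integrableOn_comp_preimage (eq0 n).measurableEmbedding).2 hF
  rw [← h1, ← integral_indicator (pre_meas hS), Measure.volume_eq_prod,
    integral_prod_symm _ ((integrable_indicator_iff (pre_meas hS)).2 h2)]
  congr 1
  funext y
  rw [← integral_indicator (fb_meas hS y)]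
  congr 1
  funext s
  by_cases h : s ∈ fb S y
  · rw [indicator_of_mem h, indicator_of_mem ((mem_pre s y).2 h), eq0_apply]
  · rw [indicator_of_notMem h, indicator_of_notMem (fun h' => h ((mem_pre s y).1 h'))]

/-- the length of the fibre -/
noncomputable def len (S : Set (Fin (n + 1) → ℝ)) (y : Fin n → ℝ) : ℝ := ∫ _ in fb S y, (1 : ℝ)

/-- the first moment of the fibre -/
noncomputable def mom (S : Set (Fin (n + 1) → ℝ)) (y : Fin n → ℝ) : ℝ := ∫ s in fb S y, s

lemma meas_fib {S : Set (Fin (n + 1) → ℝ)} (hS : MeasurableSet S) {f : ℝ → ℝ}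
    (hf : Measurable f) : Measurable fun y => ∫ s in fb S y, f s := by
  have h1 : StronglyMeasurable (((eq0 n) ⁻¹' S).indicator fun p => f p.1) :=
    ((hf.comp measurable_fst).indicator (pre_meas hS)).stronglyMeasurable
  have h2 := (h1.integral_prod_left' (μ := (volume : Measure ℝ))).measurable
  convert h2 using 1
  funext y
  rw [← integral_indicator (fb_meas hS y)]
  congr 1
  funext s
  by_cases h : s ∈ fb S y
  · rw [indicator_of_mem h, indicator_of_mem ((mem_pre s y).2 h)]
  · rw [indicator_of_notMem h, indicator_of_notMem (fun h' => h ((mem_pre s y).1 h'))]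

lemma fb_shift {K : Set (Fin (n + 1) → ℝ)} {v : (Fin n → ℝ) → ℝ} (y : Fin n → ℝ) (s : ℝ) :
    s ∈ fb (shift v '' K) y ↔ s - v y ∈ fb K y := by
  constructor
  · rintro ⟨x, hx, hxs⟩
    have h0 : x 0 + v (Fin.tail x) = s := by
      have := congrFun hxs 0
      simpa [shift] using this
    have h1 : Fin.tail x = y := by
      have := congrArg Fin.tail hxs
      simpa [shift] using this
    show (Fin.cons (s - v y) y : Fin (n + 1) → ℝ) ∈ K
    have h2 : s - v y = x 0 := by rw [← h0, h1]; ring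
    rw [h2, ← h1, cons_tail]
    exact hx
  · intro h
    refine ⟨Fin.cons (s - v y) y, h, ?_⟩
    unfold shift
    rw [Fin.tail_cons, Fin.cons_zero]
    congr 1
    ring

lemma fib_shift {K : Set (Fin (n + 1) → ℝ)} {v : (Fin n → ℝ) → ℝ} (y : Fin n → ℝ) (f : ℝ → ℝ) :
    ∫ s in fb (shift v '' K) y, f s = ∫ s in fb K y, f (s + v y) := by
  have h := (measurePreserving_add_right (volume : Measure ℝ) (v y)).setIntegral_preimage_emb
    (measurableEmbedding_addRight (v y)) f (fb (shift v '' K) y)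
  have h1 : (fun s : ℝ => s + v y) ⁻¹' (fb (shift v '' K) y) = fb K y := by
    ext s
    show s + v y ∈ fb (shift v '' K) y ↔ _
    rw [fb_shift, add_sub_cancel_right]
  rw [h1] at h
  exact h.symm

lemma fb_bdd {S : Set (Fin (n + 1) → ℝ)} (hS : IsCompact S) :
    ∃ R : ℝ, 0 ≤ R ∧ ∀ y, ∀ s ∈ fb S y, |s| ≤ R := by
  obtain ⟨R, hR⟩ := hS.isBounded.exists_norm_le
  refine ⟨max R 0, le_max_right _ _, ?_⟩
  intro y s hs
  have h1 := hR _ hs
  have h2 := norm_le_pi_norm (Fin.cons s y : Fin (n + 1) → ℝ) 0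
  rw [Fin.cons_zero, Real.norm_eq_abs] at h2
  exact (h2.trans h1).trans (le_max_left _ _)

lemma fb_fin {S : Set (Fin (n + 1) → ℝ)} (hS : IsCompact S) (y : Fin n → ℝ) :
    volume (fb S y) ≠ ⊤ := by
  obtain ⟨R, _, hR⟩ := fb_bdd hS
  have : fb S y ⊆ Icc (-R) R := fun s hs => abs_le.1 (hR y s hs)
  exact ne_top_of_le_ne_top (by simp) (measure_mono this)

lemma len_eq {S : Set (Fin (n + 1) → ℝ)} (y : Fin n → ℝ) :
    len S y = (volume (fb S y)).toReal := by
  unfold len
  simp [Measure.real]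

lemma integrableOn_fb {S : Set (Fin (n + 1) → ℝ)} (hS : IsCompact S) (y : Fin n → ℝ) :
    IntegrableOn (fun s : ℝ => s) (fb S y) := by
  obtain ⟨R, _, hR⟩ := fb_bdd hS
  have h : fb S y ⊆ Icc (-R) R := fun s hs => abs_le.1 (hR y s hs)
  exact (continuous_id.integrableOn_Icc (a := -R) (b := R)).mono_set h

lemma q_eq {K : Set (Fin (n + 1) → ℝ)} {v : (Fin n → ℝ) → ℝ} (hK : IsCompact K)
    (y : Fin n → ℝ) (hy : len K y ≠ 0) :
    mom (shift v '' K) y / len (shift v '' K) y - mom K y / len K y = v y := by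
  have h1 : len (shift v '' K) y = len K y := fib_shift y (fun _ => 1)
  have h2 : mom (shift v '' K) y = mom K y + v y * len K y := by
    have h3 : mom (shift v '' K) y = ∫ s in fb K y, (s + v y) := fib_shift y (fun s => s)
    have h4 : ∫ s in fb K y, (s + v y) = (∫ s in fb K y, s) + ∫ _ in fb K y, v y :=
      integral_add (integrableOn_fb hK y) (integrableOn_const (fb_fin hK y))
    rw [h3, h4, len_eq]
    unfold mom
    simp [Measure.real, mul_comm]
  rw [h1, h2]
  field_simp
  ring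

lemma q_le {S : Set (Fin (n + 1) → ℝ)} {R : ℝ} (hS : IsCompact S) (hR0 : 0 ≤ R)
    (hR : ∀ y, ∀ s ∈ fb S y, |s| ≤ R) (y : Fin n → ℝ) : |mom S y / len S y| ≤ R := by
  have h1 : ‖mom S y‖ ≤ R * volume.real (fb S y) :=
    norm_setIntegral_le_of_norm_le_const (lt_top_iff_ne_top.2 (fb_fin hS y)) (hR y)
  have h2 : len S y = volume.real (fb S y) := len_eq y
  have h3 : 0 ≤ len S y := by rw [h2]; exact measureReal_nonneg
  rw [← h2, Real.norm_eq_abs] at h1
  rw [abs_div, abs_of_nonneg h3]
  rcases h3.eq_or_lt with h | h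
  · rw [← h, div_zero]; exact hR0
  · rwa [div_le_iff₀ h]

lemma ae_len {K : Set (Fin (n + 1) → ℝ)} (hK : IsCompact K) :
    ∀ᵐ x ∂(volume.restrict K), len K (Fin.tail x) ≠ 0 := by
  have hm : Measurable (len K) := meas_fib hK.measurableSet measurable_const
  have htail : Measurable (Fin.tail : (Fin (n + 1) → ℝ) → (Fin n → ℝ)) := by
    refine measurable_pi_lambda _ fun i => ?_
    exact measurable_pi_apply _
  have hN : MeasurableSet {x : Fin (n + 1) → ℝ | len K (Fin.tail x) = 0} :=
    (hm.comp htail) (measurableSet_singleton 0)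
  rw [ae_restrict_iff' hK.measurableSet, ae_iff]
  have h0 : {a : Fin (n + 1) → ℝ | ¬(a ∈ K → len K (Fin.tail a) ≠ 0)} =
      K ∩ {x | len K (Fin.tail x) = 0} := by
    ext a
    simp
  rw [h0]
  have hS : MeasurableSet (K ∩ {x : Fin (n + 1) → ℝ | len K (Fin.tail x) = 0}) :=
    hK.measurableSet.inter hN
  rw [← eq0_mp.measure_preimage hS.nullMeasurableSet, Measure.volume_eq_prod,
    Measure.prod_apply_symm (pre_meas hS), lintegral_eq_zero_iff
      (measurable_measure_prodMk_right (pre_meas hS))]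
  refine Filter.Eventually.of_forall fun y => ?_
  show volume ((fun s : ℝ => (s, y)) ⁻¹' ((eq0 n) ⁻¹' (K ∩ {x | len K (Fin.tail x) = 0}))) = 0
  by_cases hy : len K y = 0
  · have h1 : volume (fb K y) = 0 := by
      rw [len_eq, ENNReal.toReal_eq_zero_iff] at hy
      exact hy.resolve_right (fb_fin hK y)
    refine measure_mono_null ?_ h1
    intro s hs
    exact ((mem_pre s y).1 hs).1
  · have h1 : (fun s : ℝ => (s, y)) ⁻¹' ((eq0 n) ⁻¹' (K ∩ {x | len K (Fin.tail x) = 0})) = ∅ := by
      rw [eq_empty_iff_forall_notMem]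
      intro s hs
      have := ((mem_pre s y).1 hs).2
      apply hy
      have h2 : len K (Fin.tail (Fin.cons s y : Fin (n + 1) → ℝ)) = 0 := this
      rwa [Fin.tail_cons] at h2
    rw [h1, measure_empty]

/-- [V2] -/
theorem shift_meas {K : Set (Fin (n + 1) → ℝ)} {v : (Fin n → ℝ) → ℝ} (hK : IsCompact K)
    (hK1 : IsCompact (shift v '' K)) :
    ∃ q : (Fin n → ℝ) → ℝ, Measurable q ∧ (∃ R, ∀ y, |q y| ≤ R) ∧
      ∀ᵐ x ∂(volume.restrict K), v (Fin.tail x) = q (Fin.tail x) := by
  obtain ⟨R1, hR1, hb1⟩ := fb_bdd hK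
  obtain ⟨R2, hR2, hb2⟩ := fb_bdd hK1
  refine ⟨fun y => mom (shift v '' K) y / len (shift v '' K) y - mom K y / len K y, ?_,
    ⟨R2 + R1, ?_⟩, ?_⟩
  · exact ((meas_fib hK1.measurableSet measurable_id).div
      (meas_fib hK1.measurableSet measurable_const)).sub
      ((meas_fib hK.measurableSet measurable_id).div
      (meas_fib hK.measurableSet measurable_const))
  · intro y
    exact (abs_sub _ _).trans (add_le_add (q_le hK1 hR2 hb2 y) (q_le hK hR1 hb1 y))
  · filter_upwards [ae_len hK] with x hx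
    exact (q_eq hK _ hx).symm

/-- [V1] -/
theorem shift_int {K : Set (Fin (n + 1) → ℝ)} {v : (Fin n → ℝ) → ℝ} (hK : IsCompact K)
    (hK1 : IsCompact (shift v '' K)) {φ : (Fin (n + 1) → ℝ) → ℝ} (hφ : Continuous φ) :
    ∫ x in shift v '' K, φ x = ∫ x in K, φ (shift v x) := by
  set q : (Fin n → ℝ) → ℝ := fun y =>
    mom (shift v '' K) y / len (shift v '' K) y - mom K y / len K y with hq
  have hqm : Measurable q := ((meas_fib hK1.measurableSet measurable_id).div
      (meas_fib hK1.measurableSet measurable_const)).sub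
      ((meas_fib hK.measurableSet measurable_id).div
      (meas_fib hK.measurableSet measurable_const))
  have hae : ∀ᵐ x ∂(volume.restrict K), v (Fin.tail x) = q (Fin.tail x) := by
    filter_upwards [ae_len hK] with x hx
    exact (q_eq hK _ hx).symm
  have hae' : (fun x => φ (shift v x)) =ᵐ[volume.restrict K] fun x => φ (shift q x) := by
    filter_upwards [hae] with x hx
    unfold shift
    rw [hx]
  obtain ⟨C, hC⟩ := hK1.exists_bound_of_continuousOn hφ.continuousOn
  have htail : Measurable (Fin.tail : (Fin (n + 1) → ℝ) → (Fin n → ℝ)) := by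
    refine measurable_pi_lambda _ fun i => ?_
    exact measurable_pi_apply _
  have hsm : Measurable (shift q) := by
    refine measurable_pi_lambda _ fun i => ?_
    refine Fin.cases ?_ (fun j => ?_) i
    · show Measurable fun x : Fin (n + 1) → ℝ => x 0 + q (Fin.tail x)
      exact (measurable_pi_apply 0).add (hqm.comp htail)
    · show Measurable fun x : Fin (n + 1) → ℝ => x j.succ
      exact measurable_pi_apply _
  have hbd : ∀ᵐ x ∂(volume.restrict K), ‖φ (shift q x)‖ ≤ C := by
    filter_upwards [hae, ae_restrict_mem hK.measurableSet] with x hx hxK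
    have h1 : shift q x = shift v x := by
      unfold shift
      rw [hx]
    rw [h1]
    exact hC _ ⟨x, hxK, rfl⟩
  have hint : IntegrableOn (fun x => φ (shift q x)) K := by
    have : IsFiniteMeasure (volume.restrict K) := isFiniteMeasure_restrict.2 hK.measure_ne_top
    exact Integrable.of_bound (hφ.measurable.comp hsm).aestronglyMeasurable C hbd
  rw [integral_congr_ae hae', fub hK.measurableSet hint,
    fub hK1.measurableSet (hφ.continuousOn.integrableOn_compact hK1)]
  congr 1
  funext y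
  rw [fib_shift y (fun s => φ (Fin.cons s y))]
  by_cases hy : len K y = 0
  · have h1 : volume (fb K y) = 0 := by
      rw [len_eq, ENNReal.toReal_eq_zero_iff] at hy
      exact hy.resolve_right (fb_fin hK y)
    rw [setIntegral_measure_zero _ h1, setIntegral_measure_zero _ h1]
  · have h1 : v y = q y := (q_eq hK _ hy).symm
    rw [h1]
    rfl

end Vale.Agent.P254.Mov.H120
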