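import Vale.Agent.P254.Mov.Defs

/-!
P254/Mov: Fubini for the translated chords.
-/

open MeasureTheory Set Matrix

namespace Vale.Agent.P254.Mov

namespace H918

variable {n : ℕ}

lemma symm_eq (t : ℝ) (y : Fin n → ℝ) :
    (MeasurableEquiv.piFinSuccAbove (fun _ : Fin (n + 1) => ℝ) 0).symm (t, y) =
      (Fin.cons t y : Fin (n + 1) → ℝ) := by
  show (0 : Fin (n + 1)).insertNth (α := fun _ => ℝ) t y = _
  rw [Fin.insertNth_zero']

lemma fub {F : (Fin (n + 1) → ℝ) → ℝ} (hF : Integrable F) :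
    ∫ x, F x = ∫ y : Fin n → ℝ, ∫ t : ℝ, F (Fin.cons t y) := by
  have hmp := (volume_preserving_piFinSuccAbove (fun _ : Fin (n + 1) => ℝ) 0).symm
  rw [← hmp.integral_comp' (g := F)]
  have hint2 : Integrable (fun p : ℝ × (Fin n → ℝ) =>
      F ((MeasurableEquiv.piFinSuccAbove (fun _ : Fin (n + 1) => ℝ) 0).symm p))
      ((volume : Measure ℝ).prod volume) :=
    (hmp.integrable_comp_emb (MeasurableEquiv.measurableEmbedding _)).2 hF
  change ∫ p : ℝ × (Fin n → ℝ),
      F ((MeasurableEquiv.piFinSuccAbove (fun _ : Fin (n + 1) => ℝ) 0).symm p)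
      ∂((volume : Measure ℝ).prod volume) = _
  rw [integral_prod_symm _ hint2]
  simp_rw [symm_eq]

lemma ae_fub {p : (Fin (n + 1) → ℝ) → Prop} (h : ∀ᵐ x, p x) :
    ∀ᵐ y : Fin n → ℝ, ∀ᵐ t : ℝ, p (Fin.cons t y) := by
  have hmp := (volume_preserving_piFinSuccAbove (fun _ : Fin (n + 1) => ℝ) 0).symm
  have h1 := hmp.quasiMeasurePreserving.ae h
  have h2 : ∀ᵐ q ∂((volume : Measure ℝ).prod (volume : Measure (Fin n → ℝ))),
      p ((MeasurableEquiv.piFinSuccAbove (fun _ : Fin (n + 1) => ℝ) 0).symm q) := h1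
  have h3 : ∀ᵐ q ∂((volume : Measure (Fin n → ℝ)).prod (volume : Measure ℝ)),
      p ((MeasurableEquiv.piFinSuccAbove (fun _ : Fin (n + 1) => ℝ) 0).symm q.swap) :=
    (Measure.measurePreserving_swap (μ := (volume : Measure (Fin n → ℝ)))
      (ν := (volume : Measure ℝ))).quasiMeasurePreserving.ae h2
  have h4 := Measure.ae_ae_of_ae_prod h3
  filter_upwards [h4] with y hy
  filter_upwards [hy] with t ht
  rwa [Prod.swap_prod_mk, symm_eq] at ht

lemma mem_shift {K : Set (Fin (n + 1) → ℝ)} {v : (Fin n → ℝ) → ℝ} (t : ℝ) (y : Fin n → ℝ) :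
    (Fin.cons t y : Fin (n + 1) → ℝ) ∈ shift v '' K ↔
      (Fin.cons (t - v y) y : Fin (n + 1) → ℝ) ∈ K := by
  constructor
  · rintro ⟨x, hx, h⟩
    have h0 := congrFun h 0
    have ht : Fin.tail x = y := by
      have := congrArg Fin.tail h
      simpa [shift] using this
    have h1 : x 0 = t - v y := by
      have : x 0 + v (Fin.tail x) = t := by simpa [shift] using h0
      rw [ht] at this
      linarith
    have : x = (Fin.cons (t - v y) y : Fin (n + 1) → ℝ) := by
      rw [← Fin.cons_self_tail x, ht, h1]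
    rwa [← this]
  · intro h
    refine ⟨_, h, ?_⟩
    simp [shift]

end H918

open H918

/-- [V1] from [V2] -/
theorem shift_int_of {n : ℕ} {K : Set (Fin (n + 1) → ℝ)} {v : (Fin n → ℝ) → ℝ} (hK : IsCompact K)
    (hK1 : IsCompact (shift v '' K))
    (hq : ∃ q : (Fin n → ℝ) → ℝ, Measurable q ∧ (∃ R, ∀ y, |q y| ≤ R) ∧
      ∀ᵐ x ∂(volume.restrict K), v (Fin.tail x) = q (Fin.tail x))
    {φ : (Fin (n + 1) → ℝ) → ℝ} (hφ : Continuous φ) :
    ∫ x in shift v '' K, φ x = ∫ x in K, φ (shift v x) := by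
  obtain ⟨q, hqm, ⟨R, hR⟩, hae⟩ := hq
  have hKm := hK.measurableSet
  -- the right hand side
  have e1 : ∫ x in K, φ (shift v x) = ∫ x in K, φ (shift q x) := by
    refine integral_congr_ae ?_
    filter_upwards [hae] with x hx
    show φ (Fin.cons (x 0 + v (Fin.tail x)) (Fin.tail x)) =
      φ (Fin.cons (x 0 + q (Fin.tail x)) (Fin.tail x))
    rw [hx]
  have hcons : Continuous fun p : ℝ × (Fin n → ℝ) => (Fin.cons p.1 p.2 : Fin (n + 1) → ℝ) := by
    refine continuous_pi fun i => ?_
    refine Fin.cases ?_ (fun j => ?_) i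
    · simp only [Fin.cons_zero]
      exact continuous_fst
    · simp only [Fin.cons_succ]
      fun_prop
  have htail : Continuous fun x : Fin (n + 1) → ℝ => (Fin.tail x : Fin n → ℝ) :=
    continuous_pi fun i => continuous_apply i.succ
  have hsm : Measurable (shift q : (Fin (n + 1) → ℝ) → Fin (n + 1) → ℝ) := by
    have h1 : Measurable fun x : Fin (n + 1) → ℝ =>
        ((x 0 + q (Fin.tail x), Fin.tail x) : ℝ × (Fin n → ℝ)) :=
      (((measurable_pi_apply 0).add (hqm.comp htail.measurable)).prodMk htail.measurable)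
    exact hcons.measurable.comp h1
  have hF2 : Integrable (K.indicator fun x => φ (shift q x)) := by
    rw [integrable_indicator_iff hKm]
    -- bounded
    obtain ⟨C, hC⟩ := (hK.image (continuous_apply (0 : Fin (n + 1)))).isBounded.exists_norm_le
    have hcpt : IsCompact ((Icc (-(C + R)) (C + R)) ×ˢ
        ((fun x : Fin (n + 1) → ℝ => (Fin.tail x : Fin n → ℝ)) '' K)) :=
      isCompact_Icc.prod (hK.image htail)
    obtain ⟨D, hD⟩ := (hcpt.image (hφ.comp hcons)).isBounded.exists_norm_le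
    refine Measure.integrableOn_of_bounded (M := D) hK.measure_lt_top.ne
      (hφ.measurable.comp hsm).aestronglyMeasurable ?_
    rw [ae_restrict_iff' hKm]
    refine Filter.Eventually.of_forall fun x hx => ?_
    refine hD _ ⟨(x 0 + q (Fin.tail x), Fin.tail x), ⟨?_, ⟨x, hx, rfl⟩⟩, rfl⟩
    have h1 := abs_le.1 (hC _ ⟨x, hx, rfl⟩)
    have h2 := abs_le.1 (hR (Fin.tail x))
    exact ⟨by linarith [h1.1, h2.1], by linarith [h1.2, h2.2]⟩
  have hF1 : Integrable ((shift v '' K).indicator φ) :=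
    (hφ.continuousOn.integrableOn_compact hK1).integrable_indicator hK1.measurableSet
  rw [e1, ← integral_indicator hKm, ← integral_indicator hK1.measurableSet, fub hF1, fub hF2]
  rw [ae_restrict_iff' hKm] at hae
  refine integral_congr_ae ?_
  filter_upwards [ae_fub hae] with y hy
  have e2 : ∀ t : ℝ, (shift v '' K).indicator φ (Fin.cons t y) =
      (fun t : ℝ => K.indicator (fun x => φ (shift v x)) (Fin.cons t y)) (t - v y) := by
    intro t
    simp only
    by_cases h : (Fin.cons t y : Fin (n + 1) → ℝ) ∈ shift v '' K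
    · rw [indicator_of_mem h, indicator_of_mem ((mem_shift t y).1 h)]
      simp [shift]
    · rw [indicator_of_notMem h, indicator_of_notMem fun h' => h ((mem_shift t y).2 h')]
  simp_rw [e2]
  rw [integral_sub_right_eq_self (fun t : ℝ =>
    K.indicator (fun x => φ (shift v x)) (Fin.cons t y)) (v y)]
  refine integral_congr_ae ?_
  filter_upwards [hy] with t ht
  by_cases h : (Fin.cons t y : Fin (n + 1) → ℝ) ∈ K
  · rw [indicator_of_mem h, indicator_of_mem h]
    have := ht h
    simp only [shift, Fin.cons_zero, Fin.tail_cons] at this ⊢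
    rw [this]
  · rw [indicator_of_notMem h, indicator_of_notMem h]

end Vale.Agent.P254.Mov
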