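import Vale.Agent.P254.Mov.Defs

/-!
P254, movements along chords: the equality case (affine movement).
-/

open MeasureTheory Set Matrix

namespace Vale.Agent.P254.Mov.H266

variable {n : ℕ}

/-- A compact convex set and a closed convex subset of the same positive volume are equal. -/
theorem eq_of_vol {m : ℕ} {A B : Set (Fin m → ℝ)} (hA : IsClosed A)
    (hB : Convex ℝ B) (hBc : IsCompact B) (hAB : A ⊆ B) (hpos : 0 < volume B)
    (hv : volume B ≤ volume A) : A = B := by
  refine hAB.antisymm fun z hz => ?_
  by_contra hzA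
  have hint : (interior B).Nonempty := by
    by_contra h
    rw [not_nonempty_iff_eq_empty] at h
    have h1 : volume B ≤ volume (frontier B) := by
      refine measure_mono fun x hx => ?_
      rw [frontier, h, sdiff_empty]
      exact subset_closure hx
    rw [hB.addHaar_frontier volume] at h1
    exact absurd hpos (not_lt.2 h1)
  have hcl : z ∈ closure (interior B) := by
    rw [hB.closure_interior_eq_closure_of_nonempty_interior hint]
    exact subset_closure hz
  have hne : (interior B ∩ Aᶜ).Nonempty := by
    rw [mem_closure_iff] at hcl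
    obtain ⟨x, h1, h2⟩ := hcl Aᶜ hA.isOpen_compl hzA
    exact ⟨x, h2, h1⟩
  have hU : IsOpen (interior B ∩ Aᶜ) := isOpen_interior.inter hA.isOpen_compl
  have hUpos : 0 < volume (interior B ∩ Aᶜ) := hU.measure_pos volume hne
  have hfin : volume A ≠ ⊤ := ne_top_of_le_ne_top hBc.measure_lt_top.ne (measure_mono hAB)
  have hdisj : Disjoint A (interior B ∩ Aᶜ) := by
    rw [disjoint_left]
    exact fun x h1 h2 => h2.2 h1
  have h1 : volume A + volume (interior B ∩ Aᶜ) ≤ volume B := by
    rw [← measure_union hdisj hU.measurableSet]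
    exact measure_mono (union_subset hAB (inter_subset_left.trans interior_subset))
  have h2 : volume A < volume A + volume (interior B ∩ Aᶜ) :=
    ENNReal.lt_add_right hfin hUpos.ne'
  exact absurd (h2.trans_le (h1.trans hv)) (lt_irrefl _)

/-- Fubini for the volume, the first coordinate inside. -/
theorem vol_fub {S : Set (Fin (n + 1) → ℝ)} (hS : MeasurableSet S) :
    volume S = ∫⁻ y : Fin n → ℝ, volume {t : ℝ | (Fin.cons t y : Fin (n + 1) → ℝ) ∈ S} := by
  have hp := (volume_preserving_piFinSuccAbove (fun _ : Fin (n + 1) => ℝ) 0).symm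
  have h1 := hp.measure_preimage hS.nullMeasurableSet
  rw [← h1, Measure.volume_eq_prod, Measure.prod_apply_symm ((MeasurableEquiv.measurable _) hS)]
  refine lintegral_congr fun y => congrArg volume ?_
  ext t
  show (Fin.insertNth 0 t y : Fin (n + 1) → ℝ) ∈ S ↔ (Fin.cons t y : Fin (n + 1) → ℝ) ∈ S
  rw [Fin.insertNth_zero']

theorem shift_cons (v : (Fin n → ℝ) → ℝ) (t : ℝ) (y : Fin n → ℝ) :
    shift v (Fin.cons t y) = Fin.cons (t + v y) y := by
  rw [shift]
  simp [Fin.tail_cons]

theorem tail_shift (v : (Fin n → ℝ) → ℝ) (x : Fin (n + 1) → ℝ) :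
    Fin.tail (shift v x) = Fin.tail x := by
  rw [shift, Fin.tail_cons]

theorem shift_zero (v : (Fin n → ℝ) → ℝ) (x : Fin (n + 1) → ℝ) :
    shift v x 0 = x 0 + v (Fin.tail x) := by
  rw [shift, Fin.cons_zero]

theorem shift_shift (v w : (Fin n → ℝ) → ℝ) (x : Fin (n + 1) → ℝ) :
    shift v (shift w x) = shift (fun y => w y + v y) x := by
  rw [shift, tail_shift, shift_zero, shift, add_assoc]

theorem shift_self (x : Fin (n + 1) → ℝ) : shift (fun _ : Fin n → ℝ => (0 : ℝ)) x = x := by
  rw [shift, add_zero, Fin.cons_self_tail]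

theorem vol_shift {K : Set (Fin (n + 1) → ℝ)} {v : (Fin n → ℝ) → ℝ} (hK : MeasurableSet K)
    (hK1 : MeasurableSet (shift v '' K)) : volume (shift v '' K) = volume K := by
  rw [vol_fub hK1, vol_fub hK]
  refine lintegral_congr fun y => ?_
  have h1 : {t : ℝ | (Fin.cons t y : Fin (n + 1) → ℝ) ∈ shift v '' K} =
      (fun t => t + -v y) ⁻¹' {t : ℝ | (Fin.cons t y : Fin (n + 1) → ℝ) ∈ K} := by
    ext t
    constructor
    · rintro ⟨x, hx, hxt⟩
      have h2 : Fin.tail x = y := by
        rw [← tail_shift v x, hxt, Fin.tail_cons]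
      have h3 : x 0 = t + -v y := by
        have h4 := shift_zero v x
        rw [hxt, Fin.cons_zero, h2] at h4
        linarith
      show (Fin.cons (t + -v y) y : Fin (n + 1) → ℝ) ∈ K
      rw [← h3, ← h2, Fin.cons_self_tail]
      exact hx
    · intro h
      refine ⟨_, h, ?_⟩
      rw [shift_cons]
      congr 1
      ring
  rw [h1]
  exact measure_preimage_add_right volume _ _

/-- The inverse affine movement as an affine map. -/
noncomputable def B (a : Fin n → ℝ) (c : ℝ) :
    (Fin (n + 1) → ℝ) →ᵃ[ℝ] (Fin (n + 1) → ℝ) where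
  toFun := shift fun y => -(a ⬝ᵥ y + c)
  linear :=
    { toFun := shift fun y => -(a ⬝ᵥ y)
      map_add' := fun x y => by
        ext i
        refine Fin.cases ?_ (fun j => ?_) i
        · rw [shift_zero, Pi.add_apply, Pi.add_apply, shift_zero, shift_zero]
          have : Fin.tail (x + y) = Fin.tail x + Fin.tail y := rfl
          rw [this, dotProduct_add]
          ring
        · rfl
      map_smul' := fun r x => by
        ext i
        refine Fin.cases ?_ (fun j => ?_) i
        · rw [shift_zero, RingHom.id_apply, Pi.smul_apply, Pi.smul_apply, shift_zero]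
          have : Fin.tail (r • x) = r • Fin.tail x := rfl
          rw [this, dotProduct_smul, smul_eq_mul, smul_eq_mul, smul_eq_mul]
          ring
        · rfl }
  map_vadd' := fun x y => by
    ext i
    refine Fin.cases ?_ (fun j => ?_) i
    · show shift (fun y => -(a ⬝ᵥ y + c)) (y + x) 0 =
        shift (fun y => -(a ⬝ᵥ y)) y 0 + shift (fun y => -(a ⬝ᵥ y + c)) x 0
      rw [shift_zero, shift_zero, shift_zero]
      have : Fin.tail (y + x) = Fin.tail y + Fin.tail x := rfl
      rw [this, dotProduct_add, Pi.add_apply]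
      ring
    · rfl

theorem B_apply (a : Fin n → ℝ) (c : ℝ) (x : Fin (n + 1) → ℝ) :
    B a c x = shift (fun y => -(a ⬝ᵥ y + c)) x := rfl

/-- [V5] equality: if `v` is affine almost everywhere and the moved body is a simplex, then
`K` is a simplex -/
theorem simplex_of_affine {K : Set (Fin (n + 1) → ℝ)} {v : (Fin n → ℝ) → ℝ}
    (hK : IsConvexBody K) (hK1 : IsCompact (shift v '' K)) (hs : IsSimplex (shift v '' K))
    (a : Fin n → ℝ) (c : ℝ)
    (h : ∀ᵐ x ∂(volume.restrict K), v (Fin.tail x) = a ⬝ᵥ Fin.tail x + c) : IsSimplex K := by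
  obtain ⟨hKc, hKk, hKi⟩ := hK
  set w : (Fin n → ℝ) → ℝ := fun y => a ⬝ᵥ y + c with hw
  have hwc : Continuous (shift w) := by
    refine continuous_pi fun i => ?_
    refine Fin.cases ?_ (fun j => ?_) i
    · show Continuous fun x : Fin (n + 1) → ℝ => x 0 + (a ⬝ᵥ Fin.tail x + c)
      refine (continuous_apply 0).add (Continuous.add ?_ continuous_const)
      refine continuous_finsetSum _ fun j _ => continuous_const.mul ?_
      exact continuous_apply (Fin.succ j)
    · exact continuous_apply (Fin.succ j)
  have hK' : IsCompact (shift w '' K) := hKk.image hwc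
  have hinv : ∀ x, shift (fun y => -(a ⬝ᵥ y + c)) (shift w x) = x := fun x => by
    rw [shift_shift]
    have : (fun y => w y + -(a ⬝ᵥ y + c)) = fun _ => (0 : ℝ) := by
      funext y
      show a ⬝ᵥ y + c + -(a ⬝ᵥ y + c) = 0
      ring
    rw [this, shift_self]
  -- the affine movement of `K` is inside the moved body
  have hsub : shift w '' K ⊆ shift v '' K := by
    have hcl : K ⊆ closure {x | x ∈ K ∧ v (Fin.tail x) = w (Fin.tail x)} := by
      have h1 : K ⊆ closure (interior K) := by
        rw [hKc.closure_interior_eq_closure_of_nonempty_interior hKi]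
        exact subset_closure
      refine h1.trans (closure_minimal ?_ isClosed_closure)
      intro x hx
      rw [mem_closure_iff]
      intro U hU hxU
      have h2 : 0 < volume (U ∩ interior K) :=
        (hU.inter isOpen_interior).measure_pos volume ⟨x, hxU, hx⟩
      by_contra hcon
      have h3 : U ∩ interior K ⊆ {x | ¬(x ∈ K → v (Fin.tail x) = w (Fin.tail x))} := by
        rintro z ⟨hz1, hz2⟩ hz3
        exact hcon ⟨z, hz1, interior_subset hz2, hz3 (interior_subset hz2)⟩
      have h4 := (ae_restrict_iff' hKk.measurableSet).1 h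
      have h5 : volume {x | ¬(x ∈ K → v (Fin.tail x) = w (Fin.tail x))} = 0 := h4
      exact absurd (measure_mono_null h3 h5) h2.ne'
    have h6 : shift w '' K ⊆ closure (shift v '' K) := by
      refine (image_mono hcl).trans ((image_closure_subset_closure_image hwc).trans ?_)
      refine closure_mono ?_
      rintro _ ⟨x, ⟨hx, hvx⟩, rfl⟩
      refine ⟨x, hx, ?_⟩
      rw [shift, shift, hvx]
    rwa [hK1.isClosed.closure_eq] at h6
  obtain ⟨p, hp, hpK⟩ := hs
  have hK1c : Convex ℝ (shift v '' K) := by
    rw [hpK]
    exact convex_convexHull ℝ _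
  have hvol1 : volume (shift v '' K) = volume K := vol_shift hKk.measurableSet hK1.measurableSet
  have hvol2 : volume (shift w '' K) = volume K := vol_shift hKk.measurableSet hK'.measurableSet
  have hpos : 0 < volume K := (isOpen_interior.measure_pos volume hKi).trans_le
    (measure_mono interior_subset)
  have heq : shift w '' K = shift v '' K :=
    eq_of_vol hK'.isClosed hK1c hK1 hsub (by rw [hvol1]; exact hpos)
      (by rw [hvol1, hvol2])
  have hKB : K = B a c '' (shift v '' K) := by
    rw [← heq, ← image_comp]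
    have : (B a c : (Fin (n + 1) → ℝ) → Fin (n + 1) → ℝ) ∘ shift w = id := by
      funext x
      exact hinv x
    rw [this, image_id]
  refine ⟨fun i => B a c (p i), ?_, ?_⟩
  · refine hp.map' (B a c) fun x y hxy => ?_
    have h1 : ∀ z, shift w (B a c z) = z := fun z => by
      rw [B_apply, shift_shift]
      have : (fun y => -(a ⬝ᵥ y + c) + w y) = fun _ => (0 : ℝ) := by
        funext y
        show -(a ⬝ᵥ y + c) + (a ⬝ᵥ y + c) = 0
        ring
      rw [this, shift_self]
    rw [← h1 x, ← h1 y, hxy]
  · rw [hKB, hpK, AffineMap.image_convexHull, ← range_comp]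
    rfl

end Vale.Agent.P254.Mov.H266
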