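import Vale.Agent.P254.Mov.Defs
import Vale.Agent.P254.FV.Good

/-! Skeleton; never import it in a final file. -/

open MeasureTheory Set Matrix

namespace Vale.Agent.P254.Mov

open Vale.Agent.P254.FV (Good)

variable {n : ℕ}

/-- [V1] Fubini; the chords are translated -/
theorem shift_int {K : Set (Fin (n + 1) → ℝ)} {v : (Fin n → ℝ) → ℝ} (hK : IsCompact K)
    (hK1 : IsCompact (shift v '' K)) {φ : (Fin (n + 1) → ℝ) → ℝ} (hφ : Continuous φ) :
    ∫ x in shift v '' K, φ x = ∫ x in K, φ (shift v x) := by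
  sorry

/-- [V2] `v` is (almost everywhere on `K`) a bounded measurable function: on the chords of
positive length it is the difference of the two midpoints -/
theorem shift_meas {K : Set (Fin (n + 1) → ℝ)} {v : (Fin n → ℝ) → ℝ} (hK : IsCompact K)
    (hK1 : IsCompact (shift v '' K)) :
    ∃ q : (Fin n → ℝ) → ℝ, Measurable q ∧ (∃ R, ∀ y, |q y| ≤ R) ∧
      ∀ᵐ x ∂(volume.restrict K), v (Fin.tail x) = q (Fin.tail x) := by
  sorry

/-- [V3] bordered determinants (Schur complement) -/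
theorem det_bord (C : Matrix (Fin n) (Fin n) ℝ) (hC : C.PosDef) (a e g : ℝ) (b β : Fin n → ℝ)
    (M : ℝ → Matrix (Fin (n + 1)) (Fin (n + 1)) ℝ)
    (h00 : ∀ t, M t 0 0 = a + 2 * t * e + t ^ 2 * g)
    (h0 : ∀ t i, M t 0 (Fin.succ i) = b i + t * β i)
    (h1 : ∀ t i, M t (Fin.succ i) 0 = b i + t * β i)
    (h2 : ∀ t i j, M t (Fin.succ i) (Fin.succ j) = C i j) (r : ℝ) :
    (1 + r) * (M 0).det + r * (1 + r) * (C.det * (g - β ⬝ᵥ (C⁻¹ *ᵥ β))) =
      r * (M 1).det + (M (-r)).det := by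
  sorry

/-- [V4] linear regression of `q` on the coordinates -/
theorem regress {K : Set (Fin (n + 1) → ℝ)} (hK : IsConvexBody K) {q : (Fin n → ℝ) → ℝ}
    (hq : Measurable q) (hR : ∃ R, ∀ y, |q y| ≤ R) (C : Matrix (Fin n) (Fin n) ℝ)
    (hC : ∀ i j, C i j = covMatrix K (Fin.succ i) (Fin.succ j)) (hC' : C.PosDef)
    (m g : ℝ) (β : Fin n → ℝ) (hm : m = (volume K).toReal⁻¹ * ∫ x in K, q (Fin.tail x))
    (hg : g = (volume K).toReal⁻¹ * ∫ x in K, (q (Fin.tail x) - m) ^ 2)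
    (hβ : ∀ i, β i = (volume K).toReal⁻¹ *
      ∫ x in K, (q (Fin.tail x) - m) * (x (Fin.succ i) - centroid K (Fin.succ i))) :
    β ⬝ᵥ (C⁻¹ *ᵥ β) ≤ g ∧ (g = β ⬝ᵥ (C⁻¹ *ᵥ β) →
      ∃ (a : Fin n → ℝ) (c : ℝ), ∀ᵐ x ∂(volume.restrict K),
        q (Fin.tail x) = a ⬝ᵥ Fin.tail x + c) := by
  sorry

/-- [V5] equality: if `v` is affine almost everywhere and the moved body is a simplex, then
`K` is a simplex -/
theorem simplex_of_affine {K : Set (Fin (n + 1) → ℝ)} {v : (Fin n → ℝ) → ℝ}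
    (hK : IsConvexBody K) (hK1 : IsCompact (shift v '' K)) (hs : IsSimplex (shift v '' K))
    (a : Fin n → ℝ) (c : ℝ)
    (h : ∀ᵐ x ∂(volume.restrict K), v (Fin.tail x) = a ⬝ᵥ Fin.tail x + c) : IsSimplex K := by
  sorry

/-- [V6] the covariance matrix of the moved body, `t ∈ {0, 1, -r}` -/
theorem cov_shift {K : Set (Fin (n + 1) → ℝ)} (hK : IsConvexBody K) {v q : (Fin n → ℝ) → ℝ}
    {t : ℝ} (hK1 : IsCompact (shift (fun y => t * v y) '' K)) (hq : Measurable q)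
    (hR : ∃ R, ∀ y, |q y| ≤ R)
    (hv : ∀ᵐ x ∂(volume.restrict K), v (Fin.tail x) = q (Fin.tail x)) (m : ℝ)
    (hm : m = (volume K).toReal⁻¹ * ∫ x in K, q (Fin.tail x)) :
    volume (shift (fun y => t * v y) '' K) = volume K ∧
    (∀ i j : Fin n, covMatrix (shift (fun y => t * v y) '' K) i.succ j.succ =
      covMatrix K i.succ j.succ) ∧
    (∀ i : Fin n, covMatrix (shift (fun y => t * v y) '' K) 0 i.succ =
      covMatrix K 0 i.succ + t * ((volume K).toReal⁻¹ *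
        ∫ x in K, (q (Fin.tail x) - m) * (x i.succ - centroid K i.succ))) ∧
    covMatrix (shift (fun y => t * v y) '' K) 0 0 =
      covMatrix K 0 0 + 2 * t * ((volume K).toReal⁻¹ *
        ∫ x in K, (q (Fin.tail x) - m) * (x 0 - centroid K 0)) +
      t ^ 2 * ((volume K).toReal⁻¹ * ∫ x in K, (q (Fin.tail x) - m) ^ 2) := by
  sorry

/-- [V7] closure under movements: from [V2]-[V6] -/
theorem good_move {K : Set (Fin (n + 1) → ℝ)} {v : (Fin n → ℝ) → ℝ} {r : ℝ} (hr : 0 < r)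
    (hK : IsConvexBody K) (h1 : Good (shift v '' K))
    (h2 : Good (shift (fun y => -(r * v y)) '' K)) : Good K := by
  sorry

end Vale.Agent.P254.Mov
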